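import Vale.Agent.P216FB.Plan
import Vale.Agent.P216BF.Curv
import Vale.Agent.P216B.Top

/-!
# P216TK: bounded curvature near a thick ball
-/

open scoped Manifold ContDiff Topology ENNReal
open Set MeasureTheory Real

set_option linter.unusedSectionVars false

namespace Vale.Agent.P216TK

open Vale.Agent.P216R Vale.Agent.P216SG Vale.Agent.P216DC Vale.Agent.P216FA Vale.Agent.P216FB
open Vale.Agent.P216BF Vale.Agent.P216N

section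

variable {M : Type} [TopologicalSpace M] [ChartedSpace E3 M] [IsManifold 𝓘(ℝ, E3) ∞ M]
  [MeasurableSpace M] [BorelSpace M]

theorem pin_sec {g : Ten E3 M} {U : Set M} {y : M} {s η C σ : ℝ} (hg : Met g U) (hp : Pin g U s)
    (hy : y ∈ U) (hs : 0 < s) (hη : 0 < η) (hC : 0 < C) (hσ : 0 < σ) (h1 : Sc g y ≤ C / σ ^ 2)
    (h2 : σ ^ 2 * exp (3 + C / η) ≤ η * s) : SecGe g y (-(η / σ ^ 2)) := by
  refine secGe_mono hg hy (hp y hy (η / C) (by positivity)) (neg_le_neg (max_le ?_ ?_))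
  · refine (mul_le_mul_of_nonneg_left h1 (by positivity)).trans_eq ?_
    field_simp
  · rw [one_div_div, div_le_div_iff₀ hs (by positivity)]
    linarith

theorem sg_eq' {g : Ten E3 M} {y : M} {σ : ℝ} (hσ : 0 < σ) (h : σ ^ 2 * Sc g y = 1) :
    P216FA.sg g y = σ := by
  have : Sc g y = σ⁻¹ ^ 2 := by field_simp; linarith
  rw [P216FA.sg, this, sqrt_sq (by positivity), inv_inv]

theorem al_of_minGeo {g : Ten E3 M} {U : Set M} {γ : ℝ → M} {l e : ℝ} (h : MinGeo g U γ (2 * l))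
    (he : 0 ≤ e) : AL g U (γ l) l e := by
  have hl : 0 ≤ l := by linarith [h.nonneg]
  have k : ∀ s ∈ Icc 0 (2 * l), ∀ t ∈ Icc 0 (2 * l), dd g U (γ s) (γ t) = |s - t| :=
    fun s hs t ht => by rw [dd, h.min s hs t ht, ENNReal.toReal_ofReal (abs_nonneg _)]
  obtain ⟨ε, hε, -, hm⟩ := h.geo
  have h0 : (0 : ℝ) ∈ Icc 0 (2 * l) := ⟨le_rfl, h.nonneg⟩
  have h1 : l ∈ Icc 0 (2 * l) := ⟨hl, by linarith⟩
  have h2 : 2 * l ∈ Icc 0 (2 * l) := ⟨h.nonneg, le_rfl⟩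
  have e1 : dd g U (γ l) (γ 0) = l := by rw [k _ h1 _ h0, sub_zero, abs_of_nonneg hl]
  have e2 : dd g U (γ l) (γ (2 * l)) = l := by
    rw [k _ h1 _ h2, abs_of_nonpos (by linarith)]; ring
  have e3 : dd g U (γ 0) (γ (2 * l)) = 2 * l := by
    rw [k _ h0 _ h2, abs_of_nonpos (by linarith)]; ring
  exact ⟨γ 0, hm ⟨by linarith, by linarith⟩, γ (2 * l), hm ⟨by linarith, by linarith⟩, e1.ge, e2.ge,
    by linarith⟩

variable {g : ℝ → Ten E3 M} {b d : M → ℝ} {T h δ t₀ r₀ B q : ℝ} {D : Set M → ℝ → M → ℝ}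
  {U : Set M} {y : M} {P : Cs}

/-- control at a point of the region at the time `t₀` -/
theorem ctlQ (env : ENV) (hCD : P.CD = cE) {L A Q : ℝ} (hF : Fw P.c g b d T h δ)
    (hD : Dfn g b d T t₀ r₀ B P.κ D) (hR : RCN P g b d T t₀ r₀ B q D) (hr : 0 < r₀)
    (ht : 2 * r₀ ^ 2 ≤ t₀) (hU : Sl b d 0 T U t₀) (hy : y ∈ U) (hA : 0 < A) (hQ : 0 < Q)
    (h1 : A / Q ≤ r₀ ^ 2 / 4) (h2 : 2 * (A / √Q) ≤ r₀) (h3 : D U t₀ y + A / √Q ≤ B)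
    (h4 : q ≤ L * Q) : CtlQ ⟨g, b, d, 0, T, U, t₀, y, D, h, δ⟩ { P with L := L } A Q where
  bas := hF.bas U t₀ y D hU hy
  env := hCD ▸ env M P.c g b d T h δ t₀ r₀ B P.κ t₀ _ _ _ D U y hF hD hr ht hU hy le_rfl
    (by nlinarith) h2 h3 (by positivity) (by nlinarith)
  cn W s z hz hq := by
    have k1 : t₀ - A / Q ≤ s := hz.le
    have k2 : D W s z ≤ D U t₀ y + A / √Q := hz.dle
    have k3 : Sl b d 0 T W s ∧ s ≤ t₀ := by
      rcases hz.prec with ⟨rfl, rfl⟩ | ⟨k, rfl⟩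
      · exact ⟨hU, le_rfl⟩
      · exact ⟨sl_post ⟨by nlinarith, k.trans_le hU.mem_Icc.2⟩, k.le⟩
    exact hR W s z k3.1 ⟨by linarith, k3.2⟩ hz.mem (k2.trans h3) (h4.trans hq)

/-- almost nonnegative curvature on a parabolic neighbourhood -/
theorem par_sec {c : ℕ → ℝ} {ρ τ η C σ : ℝ} (hF : Fw c g b d T h δ) (hU : Sl b d 0 T U t₀)
    (hp : ParB g U y t₀ ρ τ (C / σ ^ 2)) (hτ : 0 < τ) (ht : 2 * τ ≤ t₀) (hη : 0 < η) (hC : 0 < C)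
    (hσ : 0 < σ) (h2 : 2 * (σ ^ 2 * exp (3 + 6 * C / η)) ≤ η * t₀) :
    ∀ s ∈ Icc (t₀ - τ) t₀, ∀ z ∈ bl (g t₀) U y ρ, SecGe (g s) z (-(η / σ ^ 2)) := by
  intro s hs z hz
  have h1 := hF.sf.subset_liv (by linarith) hp.1.toFam hz
  obtain ⟨W, hW, hW'⟩ := hF.sf.exists_sl (by linarith) hU.mem_Icc.2 h1 hs
  have h3 : t₀ ≤ 2 * s := by linarith [hs.1]
  have h4 := (abs_le.1 (abs_sc_le3 finrank_E3 (hF.sf.met hW) (hW' h1) (hp.2 s hs z hz))).2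
  exact pin_sec (hF.sf.met hW) (hF.pin W s hW (by linarith)) (hW' h1) (by linarith) hη
    (C := 6 * C) (by positivity) hσ (by rwa [mul_div_assoc]) (by nlinarith)

/-- the centre of a thick ball has no canonical neighbourhood of small scale -/
theorem not_cn {g : Ten E3 M} {x : M} {ε C A w w' ρ r : ℝ} (h : CN ε C A w g U x) (hw : w < w')
    (hw0 : 0 ≤ w) (hA : 0 ≤ A) (hρ : 0 < ρ) (h1 : 1 / ρ ^ 2 ≤ Sc g x) (h2 : A * ρ ≤ r)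
    (hV : ∀ s, 0 < s → s ≤ r → Vl w' g U x s) : False := by
  obtain ⟨s, ⟨s1, s2⟩, k2⟩ := h.nt.thin
  have k3 : 0 < P216FA.sg g x := inv_pos.2 (sqrt_pos.2 h.pos)
  have k4 : P216FA.sg g x ≤ ρ := by
    refine inv_le_of_inv_le₀ hρ (le_sqrt_of_sq_le ?_)
    rwa [inv_pow, ← one_div]
  have k5 : 0 < s := k3.trans_le s1
  have k6 := (hV s k5 (s2.trans ((mul_le_mul_of_nonneg_left k4 hA).trans h2))).trans k2
  rw [ENNReal.ofReal_le_ofReal_iff (by positivity)] at k6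
  exact absurd (mul_lt_mul_of_pos_right hw (pow_pos k5 3)) (not_lt.2 k6)

/-- canonical neighbourhoods in the form used for bounded curvature at bounded distance -/
theorem cnb {v a C η σ : ℝ} (hP : P.Ok 1) (hF : Fw P.c g b d T h δ) (hU : Sl b d 0 T U t₀)
    (k3 : CN P.ε P.C P.A P.w (g t₀) U y) (hσ : 0 < σ) (h1 : σ ^ 2 * Sc (g t₀) y = 1)
    (hC : P.C ≤ C) (hη : 0 < η) (ha : 0 < a) (h2 : 2 * (a * σ ^ 2) ≤ t₀)
    (h3 : 2 * (σ ^ 2 * exp (3 + 6 * C / η)) ≤ η * t₀)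
    (h4 : Cen (g t₀) U y σ P.ε → MN v (g t₀) U y σ ∧
      ParB g U y t₀ (a * σ) (a * σ ^ 2) (C / σ ^ 2)) : CNb v P.A a C η g U t₀ y σ := by
  have hσ2 := pow_pos hσ 2
  have hC0 : 0 < C := one_pos.trans_le (hP.C1.trans hC)
  have k0 : Sc (g t₀) y = 1 / σ ^ 2 := by field_simp; linarith
  have k4 := sg_eq' hσ h1
  have k5 : ∀ u ∈ bl (g t₀) U y (P.A * σ), Sc (g t₀) u ≤ C / σ ^ 2 := fun u hu => by
    refine (k3.dt.two u (k4.symm ▸ hu)).2.trans ?_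
    rw [k0, mul_one_div]
    exact div_le_div_of_nonneg_right hC hσ2.le
  refine ⟨k5, fun γ hγ hγ' => ?_⟩
  obtain ⟨l1, l5⟩ := h4 (k4 ▸ k3.nt.neck (by rw [k4, ← hγ']; exact al_of_minGeo hγ hσ.le))
  have l2 := mul_pos ha hσ2
  have l6 : 0 < t₀ := by linarith
  refine ⟨l1, fun u hu => ?_, l5, par_sec hF hU l5 l2 h2 hη hC0 hσ h3⟩
  exact pin_sec (hF.sf.met hU) (hF.pin U t₀ hU l6) (bl_subset hu) l6 hη (C := 6 * C)
    (by positivity) hσ ((k5 u (bl_mono (mul_le_mul_of_nonneg_right hP.A1 hσ.le) hu)).trans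
      (div_le_div_of_nonneg_right (by linarith) hσ2.le))
    (by linarith [mul_pos hσ2 (exp_pos (3 + 6 * C / η))])

end

theorem exists_q (K₁ : ℝ) {L A A₀ a : ℝ} (hL : 0 < L) (hA : 0 ≤ A) (hA₀ : 0 ≤ A₀) (ha : 0 ≤ a) :
    ∃ q : ℝ, 1 ≤ q ∧ K₁ ≤ q ^ 2 ∧ K₁ ≤ L * q ^ 2 ∧ A ≤ q ∧ 2 * A₀ ≤ q ∧ 4 * A₀ ≤ q ^ 2 ∧
      2 * a ≤ q ^ 2 := by
  have k1 : 0 ≤ |K₁| / L := by positivity
  have k2 := abs_nonneg K₁
  have k3 := le_abs_self K₁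
  have k4 : L * (|K₁| / L) = |K₁| := by field_simp
  obtain ⟨q, hq⟩ : ∃ q, q = 1 + |K₁| + |K₁| / L + A + 4 * A₀ + 2 * a := ⟨_, rfl⟩
  have k5 : 1 ≤ q := by linarith
  have k6 : q ≤ q ^ 2 := by nlinarith
  exact ⟨q, k5, by linarith, by nlinarith, by linarith, by linarith, by linarith, by linarith⟩

theorem num {q σ ρ r r₀ t₀ A₀ a η E : ℝ} (q1 : 1 ≤ q) (q5 : 2 * A₀ ≤ q) (q6 : 4 * A₀ ≤ q ^ 2)
    (q7 : 2 * a ≤ q ^ 2) (hσ : 0 < σ) (hσ' : σ ≤ ρ) (e : r = q * ρ) (hr₀ : r ≤ r₀)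
    (ht : 2 * r₀ ^ 2 ≤ t₀) (hE : 0 < E) (hrt : r ^ 2 ≤ η / (2 * E) * t₀) :
    A₀ * σ ^ 2 ≤ r₀ ^ 2 / 4 ∧ 2 * (A₀ * σ) ≤ r ∧ 2 * (a * σ ^ 2) ≤ t₀ ∧
      2 * (σ ^ 2 * E) ≤ η * t₀ := by
  have k6 : q * σ ≤ r := e ▸ mul_le_mul_of_nonneg_left hσ' (by positivity)
  have k5 : σ ≤ q * σ := le_mul_of_one_le_left hσ.le q1
  have k7 : q ^ 2 * σ ^ 2 ≤ r ^ 2 := by rw [← mul_pow]; gcongr
  have k8 : r ^ 2 ≤ r₀ ^ 2 := by gcongr; linarith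
  have k9 : σ ^ 2 ≤ r ^ 2 := by gcongr; linarith
  have hσ2 := pow_pos hσ 2
  rw [div_mul_eq_mul_div, le_div_iff₀ (by positivity)] at hrt
  exact ⟨by linarith [mul_le_mul_of_nonneg_right q6 hσ2.le],
    by linarith [mul_le_mul_of_nonneg_right q5 hσ.le],
    by linarith [mul_le_mul_of_nonneg_right q7 hσ2.le],
    by linarith [mul_le_mul_of_nonneg_right k9 hE.le]⟩

/-- **TKB** -/
theorem tkb (env : ENV) (nkp : NKP) (bcbd : BCBD) (nm : NECKM) (bgc : BGC) : TKB := by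
  intro c
  obtain ⟨eN, heN, nkp⟩ := nkp c
  obtain ⟨eM, heM, v, hv, nm⟩ := nm
  obtain ⟨cB, hcB, bgc⟩ := bgc
  refine ⟨min (min eN eM) 1, by positivity, cB / 2, by positivity, fun P K₁ w hc hP hCD hw => ?_⟩
  obtain ⟨⟨e1, e2⟩, e3⟩ := (le_min_iff.1 hP.εe).imp_left le_min_iff.1
  obtain ⟨L, hL, a, ha, KN, A₀, δ₀, hδ₀, hA₀, nkp⟩ := nkp P hc { hP with εe := e1 }
  have hA : 0 ≤ P.A := le_trans (by norm_num) hP.A1
  have hw0 := hP.w0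
  have hw1 : 0 < cB * w := by linarith
  obtain ⟨q, q1, q2, q3, q4, q5, q6, q7⟩ := exists_q K₁ hL hA hA₀.le ha.le
  obtain ⟨K, η, hη, bcbd⟩ := bcbd v hv P.A hP.A1 a ha (max P.C KN) (2 * q)
  refine ⟨(|K| + 1) * q ^ 2, by positivity, η / (2 * exp (3 + 6 * max P.C KN / η)), by positivity,
    δ₀, hδ₀, fun M _ _ _ _ _ g b d T h δ t₀ r₀ r B D U x hF hδ hr hr₀ ht hrt hU hx hD hR hB hs hV
      y hy => ?_⟩
  have hg := hF.sf.met hU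
  have hH := hF.sf.sl_hs hU
  have hC := hg.cpl (hF.sf.sl_cpt hU)
  have hr2 := sq_nonneg r₀
  have h0 : t₀ ∈ Icc (t₀ - r₀ ^ 2 / 4) t₀ := ⟨by linarith, le_rfl⟩
  obtain ⟨ρ, hρ, e⟩ : ∃ ρ > 0, r = q * ρ := ⟨r / q, by positivity, by field_simp⟩
  have hq : ∀ S, 1 / ρ ^ 2 ≤ S → K₁ / r ^ 2 ≤ S ∧ K₁ / r ^ 2 ≤ L * S := fun S hS => by
    have k : q ^ 2 / r ^ 2 = 1 / ρ ^ 2 := by rw [e]; field_simp
    refine ⟨((div_le_div_of_nonneg_right q2 (sq_nonneg r)).trans k.le).trans hS, ?_⟩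
    refine (div_le_div_of_nonneg_right q3 (sq_nonneg r)).trans ?_
    rw [mul_div_assoc, k]
    exact mul_le_mul_of_nonneg_left hS hL.le
  have hx1 : Sc (g t₀) x ≤ 1 / ρ ^ 2 := le_of_not_ge fun k =>
    not_cn (hR U t₀ x hU h0 hx (by linarith) (hq _ k).1) (by linarith : P.w < cB * w) hw0.le hA hρ
      k (e ▸ mul_le_mul_of_nonneg_right q4 hρ.le) fun s s1 s2 => bgc M _ U x w r s hg hH
        (hC.cpt hx r) hs ((mul_pos_iff_of_pos_left hcB).1 hw1).le s1 s2 hV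
  have e2 : 2 * q * ρ = 2 * r := by rw [e, mul_assoc]
  refine (bcbd M g U t₀ x ρ hρ hg hH (hC.cpt hx _) hx1 (fun z hz σ hσ hσ' hz1 => ?_) y
    (e2 ▸ hy)).trans ?_
  swap
  · rw [e, mul_pow, mul_comm (q ^ 2), mul_div_mul_right _ _ (by positivity)]
    exact div_le_div_of_nonneg_right ((le_abs_self K).trans (lt_add_one _).le) (sq_nonneg ρ)
  rw [e2] at hz
  have hzU := bl_subset hz
  have k0 : Sc (g t₀) z = 1 / σ ^ 2 := eq_div_of_mul_eq (by positivity) ((mul_comm _ _).trans hz1)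
  have k1 := hq _ ((one_div_le_one_div_of_le (by positivity) (pow_le_pow_left₀ hσ.le hσ' 2)).trans
    k0.ge)
  have k2 : D U t₀ z + r ≤ B := by
    have := hD.d1 U t₀ hU ⟨by linarith, le_rfl⟩ x hx z hzU
    linarith [(mem_bl_iff.1 hz).2]
  have k3 := hR U t₀ z hU h0 hzU (by linarith) k1.1
  obtain ⟨n1, n2, n3, n4⟩ := num q1 q5 q6 q7 hσ hσ' e hr₀ ht (exp_pos _) hrt
  refine cnb { hP with εe := e3 } hF hU k3 hσ hz1 (le_max_left _ _) hη ha n3 n4 fun l1 =>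
    ⟨nm M _ U z σ P.ε σ hg hH ‹_› l1 hσ hz1, ?_⟩
  have l2 : A₀ / Sc (g t₀) z = A₀ * σ ^ 2 := by rw [k0, div_div_eq_mul_div, div_one]
  have l3 : A₀ / √(Sc (g t₀) z) = A₀ * σ := by
    rw [div_eq_mul_inv]; exact congrArg _ (sg_eq' hσ hz1)
  have l4 := nkp M ⟨g, b, d, 0, T, U, t₀, z, D, h, δ⟩ σ hδ hσ hz1 (ctlQ env hCD hF hD hR
    (hr.trans_le hr₀) ht hU hzU hA₀ k3.pos (l2 ▸ n1) (l3 ▸ n2.trans hr₀)
    (by rw [l3]; linarith) k1.2) l1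
  exact ⟨l4.1, fun s hs u hu =>
    rmB_mono (l4.2 s hs u hu) (div_le_div_of_nonneg_right (le_max_right _ _) (sq_nonneg σ))⟩

end Vale.Agent.P216TK
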