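import Vale.Agent.P216T.Cov
import Vale.Agent.P216.H126U.U4

/-!
# P216TK: the universal covering of a manifold, and the coverings of subgroups
-/

set_option linter.all false

open Set Topology

noncomputable section

namespace Vale.Agent.P216TK

open Vale.Agent.P216T Vale.Agent.P216.H126U

/-- charts of the source of a local homeomorphism, with values in the target -/
abbrev lhCharts {X W : Type} [TopologicalSpace X] [TopologicalSpace W] {p : X → W}
    (hp : IsLocalHomeomorph p) : ChartedSpace W X :=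
  ⟨range fun x => (hp x).choose, fun x => (hp x).choose, fun x => (hp x).choose_spec.1,
    fun x => ⟨x, rfl⟩⟩

/-- The two products of the fundamental group. -/
def fgHom {W : Type} [TopologicalSpace W] (x₀ : W) : FundamentalGroup W x₀ ≃* Pi1 x₀ where
  toFun p := ((FundamentalGroup.toPath p : Pi1 x₀))⁻¹
  invFun p := FundamentalGroup.fromPath (p⁻¹ : Pi1 x₀)
  left_inv p := inv_inv (G := Pi1 x₀) _
  right_inv p := inv_inv (G := Pi1 x₀) _
  map_mul' p q := mul_inv_rev (FundamentalGroup.toPath q : Pi1 x₀) (FundamentalGroup.toPath p)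

theorem inC_congr {G G' : Type} [Group G] [Group G'] (e : G' ≃* G) {N : Type} [TopologicalSpace N]
    (h : InC G N) : InC G' N := by
  obtain ⟨X, _, _, P, h1, h2⟩ := h
  letI : MulAction G' X := MulAction.compHom X e.toMonoidHom
  refine ⟨X, _, this, P, h1, h2.loc, h2.surj, fun g => h2.cont (e g), fun g => h2.inv (e g),
    fun x y k => ?_, fun g x k => e.injective ((h2.free (e g) x k).trans (map_one e).symm)⟩
  obtain ⟨g, rfl⟩ := h2.orb x y k
  exact ⟨e.symm g, congrArg (· • x) (e.apply_symm_apply g)⟩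

/-- **A connected manifold is in the class of its fundamental group.** -/
theorem inC_pi1 (V : Type) [NormedAddCommGroup V] [NormedSpace ℝ V] [FiniteDimensional ℝ V]
    {W : Type} [TopologicalSpace W] [ChartedSpace V W] [PreconnectedSpace W] (x₀ : W) :
    InC (FundamentalGroup W x₀) W := by
  have : ConnectedSpace W := { toNonempty := ⟨x₀⟩ }
  choose ψ hψ hψ' using fun x : W => exists_param (V := V) x
  let A : Atlas (Module.finrank ℝ V) W W := ⟨ψ, hψ, fun x => ⟨x, hψ' x⟩⟩
  have := pathConnected A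
  have := ChartedSpace.locallyPathConnectedSpace V W
  have hp : IsLocalHomeomorph (pr A x₀) := pr_cov.isLocalHomeomorph
  letI := lhCharts hp
  have := ChartedSpace.locallyPathConnectedSpace W (UX A x₀)
  have : SimplyConnectedSpace (UX A x₀) := sc
  exact inC_congr (fgHom x₀) ⟨UX A x₀, _, inferInstance, pr A x₀, SC.of_simplyConnected _, hp,
    fun x => ⟨⟨x, (1 : Pi1 x₀)⟩, rfl⟩, smul_cont, smul_proj, fun e e' k => (smul_orb e e').1 k,
    smul_free⟩

variable {G : Type} [Group G] {X N : Type} [TopologicalSpace X] [TopologicalSpace N]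
  [MulAction G X] {P : X → N}

/-- **The covering which belongs to a subgroup.** -/
theorem exists_sub (h : Quo G P) (H : Subgroup G) : ∃ (Q : Type) (_ : TopologicalSpace Q)
    (π : X → Q) (q : Q → N), Quo H π ∧ IsLocalHomeomorph q ∧ ∀ x, q (π x) = P x := by
  have : ContinuousConstSMul H X := ⟨fun g => h.cont g⟩
  let π : X → MulAction.orbitRel.Quotient H X := Quotient.mk _
  have h1 : IsQuotientCoveringMap π H :=
    { toIsQuotientMap := isQuotientMap_quotient_mk'
      continuous_const_smul := fun g => h.cont g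
      apply_eq_iff_mem_orbit := Quotient.eq''
      disjoint := fun x => by
        obtain ⟨U, hU, hx, -, hg⟩ := h.exists_nbhd x
        exact ⟨U, hU.mem_nhds hx, fun g ⟨_, ⟨y, hy, rfl⟩, k⟩ => Subtype.ext (hg g y hy k)⟩ }
  have h2 := h1.isCoveringMap.isLocalHomeomorph
  let q : MulAction.orbitRel.Quotient H X → N :=
    Quotient.lift P fun x y ⟨g, k⟩ => by rw [← k]; exact h.inv g y
  refine ⟨_, inferInstance, π, q, ⟨h2, h1.surjective, fun g => h.cont g, fun g x => h1.map_smul g,
    fun x y k => h1.apply_eq_iff_mem_orbit.1 k.symm, fun g x k => Subtype.ext (h.free g x k)⟩, ?_,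
    fun _ => rfl⟩
  have h3 := IsLocalHomeomorphOn.of_comp_right (g := q) (f := π) (s := univ)
    h.loc.isLocalHomeomorphOn h2.isLocalHomeomorphOn
  rwa [image_univ, h1.surjective.range_eq, ← isLocalHomeomorph_iff_isLocalHomeomorphOn_univ] at h3

variable {H : Subgroup G} {Q : Type} [TopologicalSpace Q] {π : X → Q} {q : Q → N}

theorem t2_sub [T2Space N] (h : Quo G P) (h' : Quo H π) (hq : Continuous q)
    (e : ∀ x, q (π x) = P x) : T2Space Q := by
  refine ⟨fun a b hne => ?_⟩
  by_cases h1 : q a = q b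
  · obtain ⟨x, rfl⟩ := h'.surj a
    obtain ⟨y, rfl⟩ := h'.surj b
    obtain ⟨g, rfl⟩ := h.orb x y (by rwa [e, e] at h1)
    obtain ⟨U, hU, hx, -, hg⟩ := h.exists_nbhd x
    refine ⟨π '' U, π '' ((fun z => g • z) '' U), h'.isOpenMap _ hU,
      h'.isOpenMap _ (h.isOpen_smul g hU), ⟨x, hx, rfl⟩, ⟨_, ⟨x, hx, rfl⟩, rfl⟩,
      disjoint_left.2 ?_⟩
    rintro _ ⟨u, hu, rfl⟩ ⟨_, ⟨v, hv, rfl⟩, k⟩
    obtain ⟨t, ht⟩ := h'.orb _ _ k
    have h2 : ((t : G) * g) • v = u := by rw [mul_smul]; exact ht
    have h3 : t • g • x = x := by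
      change (t : G) • g • x = x
      rw [← mul_smul, hg (t * g) v hv (h2 ▸ hu), one_smul]
    exact hne (by rw [← h'.inv t (g • x), h3])
  · obtain ⟨u, v, hu, hv, hxu, hxv, huv⟩ := t2_separation h1
    exact ⟨q ⁻¹' u, q ⁻¹' v, hu.preimage hq, hv.preimage hq, hxu, hxv, huv.preimage _⟩

theorem compact_sub [T2Space N] [CompactSpace N] [H.FiniteIndex] (h : Quo G P) (h' : Quo H π) :
    CompactSpace Q := by
  letI := lhCharts h.loc
  have := ChartedSpace.locallyCompactSpace N X
  obtain ⟨K, hK, hK'⟩ := h.exists_compact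
  refine ⟨(isCompact_iUnion fun c : G ⧸ H =>
    (hK.image (h.cont c.out⁻¹)).image h'.continuous).of_isClosed_subset isClosed_univ fun a _ => ?_⟩
  obtain ⟨x, rfl⟩ := h'.surj a
  obtain ⟨g, hg⟩ := hK' x
  obtain ⟨t, ht⟩ := QuotientGroup.mk_out_eq_mul H g
  refine mem_iUnion.2 ⟨g, _, ⟨_, hg, rfl⟩, ?_⟩
  beta_reduce
  rw [ht, ← h'.inv t⁻¹ x, mul_inv_rev, mul_smul, inv_smul_smul]
  rfl

end Vale.Agent.P216TK
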