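import Vale.Agent.P216TK.T0a
import Vale.Agent.P216M.Main3
import Vale.Agent.P216TE.Fin
import Vale.Agent.P216MG.T2

/-!
# P216TK: the start
-/

namespace Vale.Agent.P216TK

open Vale.Agent.P216T

theorem old : OldGoal := fun E _ _ _ M _ _ _ _ _ _ _ x₀ h3 hfin =>
  ⟨P216.finitelyCyclicallyCovered_fundamentalGroup E M x₀ hfin,
    nvc_of fun H hH =>
      ⟨fun k => P216M.main_old E (by omega) x₀ (Or.inl ⟨H, hH, Or.inl k⟩) hfin,
        ⟨fun e => P216M.main_old E (by omega) x₀ (Or.inl ⟨H, hH, Or.inr ⟨e⟩⟩) hfin⟩⟩,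
    fun m τ k => P216M.main_old E (by omega) x₀ (Or.inr (Or.inl ⟨m, ℝ, inferInstance, τ, k⟩)) hfin⟩

/-- **T0** -/
theorem t0_of : TfGoal → BsGoal → T2Goal → P216C.T0 := t0_of_old old

theorem t0 : P216C.T0 := t0_of P216TE.tf P216TE.bs P216MG.t2

end Vale.Agent.P216TK
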