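import Vale.Agent.P216TK.Tkb
import Vale.Agent.P216FA.Glob
import Vale.Agent.P216FI.Vol2

/-!
# P216TK: thick points have bounded curvature
-/

open Set Real

namespace Vale.Agent.P216TK

open Vale.Agent.P216R Vale.Agent.P216FA Vale.Agent.P216BF

/-- **LOWPT** -/
theorem lowpt : LOWPT := fun C A hC hA => ⟨A ^ 2 * exp (3 + C / (1 / A ^ 2)),
  fun X g U D ε w w' L a hT hU hg hw ha hp hK h => by
    obtain ⟨x, hx, hV⟩ := hT X.M U g hU hg
    refine ⟨x, hx, not_le.1 fun k => ?_⟩
    have k1 := h x hx k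
    have k2 : 0 < sg g x := inv_pos.2 (sqrt_pos.2 k1.pos)
    have k3 : sg g x ^ 2 * Sc g x = 1 := by
      rw [sg, inv_pow, sq_sqrt k1.pos.le, inv_mul_cancel₀ k1.pos.ne']
    obtain ⟨ρ, ⟨r1, r2⟩, k4⟩ := k1.nt.thin
    have hρ := k2.trans_le r1
    have k5 := hV ρ hρ fun y hy => by
      refine secGe_mono hg (bl_subset hy) (pin_sec hg hp (bl_subset hy) ha (η := 1 / A ^ 2) (C := C)
        (by positivity) (by positivity) k2 ?_ ?_) (neg_le_neg ?_)
      · refine (k1.dt.two y (bl_mono r2 hy)).2.trans_eq ?_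
        rw [eq_div_iff (by positivity), mul_assoc, mul_comm (Sc g x), k3, mul_one]
      · rw [one_div_mul_eq_div, le_div_iff₀ (by positivity)]
        have := mul_le_mul_of_nonneg_left (hK.trans (mul_le_mul_of_nonneg_left k ha.le))
          (sq_nonneg (sg g x))
        rw [mul_left_comm _ a, k3] at this
        linarith
      · rw [div_div, ← mul_pow]
        exact one_div_le_one_div_of_le (by positivity) (pow_le_pow_left₀ hρ.le r2 2)
    have k6 := (vol_pos hg hx ((hg.isOpen_bl x ρ).mem_nhds (mem_bl_self hx hρ))).trans_le k4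
    have k7 := (ENNReal.ofReal_le_ofReal_iff (ENNReal.ofReal_pos.1 k6).le).1 (k5.trans k4)
    exact absurd (mul_lt_mul_of_pos_right hw (pow_pos hρ 3)) (not_lt.2 k7)⟩

end Vale.Agent.P216TK
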