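import Vale.Agent.P216T.Defs
import Mathlib.RepresentationTheory.Coinduced
import Mathlib.GroupTheory.SpecificGroups.Cyclic
import Mathlib.LinearAlgebra.Matrix.GeneralLinearGroup.Defs

/-!
# P216TK: subgroups of finite index
-/

set_option linter.all false

open Set Subgroup

namespace Vale.Agent.P216TK

open Vale.Agent.P216T

variable {G : Type} [Group G]

theorem exists_gen (H : Subgroup G) (b : G) :
    ∃ c : H, ∀ y : H, (y : G) ∈ zpowers b → y ∈ zpowers c := by
  obtain ⟨g, hg⟩ := IsCyclic.exists_generator (α := H.subgroupOf (zpowers b))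
  refine ⟨⟨g.1.1, g.2⟩, fun y hy => ?_⟩
  obtain ⟨k, hk⟩ := hg ⟨⟨y, hy⟩, y.2⟩
  exact ⟨k, Subtype.ext (congrArg (fun z : H.subgroupOf (zpowers b) => z.1.1) hk)⟩

theorem cc_sub (h : CC G) (H : Subgroup G) [H.FiniteIndex] : CC H := by
  obtain ⟨F, hF, h⟩ := h
  choose c hc using exists_gen H
  refine ⟨_, (hF.prod (finite_univ (α := G ⧸ H))).image fun p => c (p.2.out⁻¹ * p.1 * p.2.out),
    fun x => ?_⟩
  obtain ⟨a, ha, k, hk⟩ := h x
  obtain ⟨g, hg⟩ := isConj_iff.1 hk
  obtain ⟨t, ht⟩ := QuotientGroup.mk_out_eq_mul H g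
  obtain ⟨m, hm⟩ := hc ((g : G ⧸ H).out⁻¹ * a * (g : G ⧸ H).out) (t⁻¹ * x * t) ⟨k, by
    have := conj_zpow (i := k) (a := (g : G ⧸ H).out⁻¹) (b := a)
    rw [inv_inv] at this
    beta_reduce
    rw [this, ← hg, ht]
    push_cast
    group⟩
  exact ⟨_, ⟨(a, g), ⟨ha, trivial⟩, rfl⟩, m, isConj_iff.2 ⟨t⁻¹, by rw [inv_inv]; exact hm.symm⟩⟩

theorem nvc_sub (h : NVC G) (H : Subgroup G) [H.FiniteIndex] : NVC H := fun a ha => h a ⟨by
  have := index_map_subtype (zpowers a)
  rw [MonoidHom.map_zpowers] at this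
  exact this ▸ mul_ne_zero ha.1 FiniteIndex.index_ne_zero⟩

theorem pk_sub (h : Pk G) (H : Subgroup G) [H.FiniteIndex] : Pk H where
  cc := cc_sub h.cc H
  nvc := nvc_sub h.nvc H
  tf x n hn e := Subtype.ext (h.tf x n hn (congrArg Subtype.val e))
  cen x hx := by
    obtain ⟨z, hz⟩ := h.cen x fun e => hx (Subtype.ext e)
    obtain ⟨c, hc⟩ := exists_gen H z
    exact ⟨c, fun y hy => hc y (hz y (hy.map H.subtype))⟩

/-- a group which is not virtually trivial or infinite cyclic -/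
theorem nvc_of (h : ∀ H : Subgroup G, H.FiniteIndex → H ≠ ⊥ ∧ IsEmpty (Multiplicative ℤ ≃* H)) :
    NVC G := fun a ha => by
  by_cases h1 : IsOfFinOrder a
  · have := h1.finite_zpowers.to_subtype
    have : Finite G := Finite.of_subgroup_quotient (zpowers a)
    exact (h ⊥ inferInstance).1 rfl
  · refine (h _ ha).2.false (MulEquiv.ofBijective ((zpowersHom G a).codRestrict (zpowers a)
      fun k => ⟨_, rfl⟩) ⟨fun k l e => ?_, fun ⟨_, k, rfl⟩ => ⟨Multiplicative.ofAdd k, rfl⟩⟩)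
    exact injective_zpow_iff_not_isOfFinOrder.2 h1 (congrArg Subtype.val e)

/-- **The induced representation.** -/
theorem lin_of_sub (H : Subgroup G) [H.FiniteIndex] {n : ℕ} (ρ : H →* GL (Fin (n + 1)) ℝ)
    (hρ : Function.Injective ρ) : ∃ (m : ℕ) (τ : G →* GL (Fin m) ℝ), Function.Injective τ := by
  classical
  let σ : Representation ℝ H (Fin (n + 1) → ℝ) :=
    (Units.coeHom _).comp (Matrix.GeneralLinearGroup.toLin.toMonoidHom.comp ρ)
  have hσ : Function.Injective σ :=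
    Units.val_injective.comp (Matrix.GeneralLinearGroup.toLin.injective.comp hρ)
  let V := Representation.coindV H.subtype σ
  have : FiniteDimensional ℝ V := by
    refine FiniteDimensional.of_injective (V₂ := G ⧸ H → Fin (n + 1) → ℝ)
      ((LinearMap.funLeft ℝ _ fun c : G ⧸ H => c.out⁻¹).comp V.subtype)
      ((injective_iff_map_eq_zero _).2 fun f hf => Subtype.ext (funext fun g => ?_))
    obtain ⟨t, ht⟩ := QuotientGroup.mk_out_eq_mul H g⁻¹
    have h1 : f.1 ((g⁻¹ : G) : G ⧸ H).out⁻¹ = 0 := congrFun hf _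
    have h2 := f.2 t ((g⁻¹ : G) : G ⧸ H).out⁻¹
    rw [h1, map_zero, ht] at h2
    simpa using h2
  refine ⟨_, (Matrix.GeneralLinearGroup.toLin' (Module.finBasis ℝ V)).symm.toMonoidHom.comp
    (Representation.coind H.subtype σ).asGroupHom, (injective_iff_map_eq_one _).2 fun g hg => ?_⟩
  replace hg := (Matrix.GeneralLinearGroup.toLin' (Module.finBasis ℝ V)).symm.map_eq_one_iff.1 hg
  have h1 : ∀ v, (if h : g ∈ H then σ ⟨g, h⟩ v else 0) = v := fun v => by
    let f : V := ⟨fun x => if h : x ∈ H then σ ⟨x, h⟩ v else 0, fun a x => by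
      rw [coe_subtype]
      beta_reduce
      by_cases hx : x ∈ H
      · rw [dif_pos hx, dif_pos (H.mul_mem a.2 hx), ← Module.End.mul_apply, ← map_mul]
        rfl
      · rw [dif_neg hx, dif_neg fun k => hx ((H.mul_mem_cancel_left a.2).1 k), map_zero]⟩
    have h2 : f.1 (1 * g) = f.1 1 :=
      congrArg (fun u : (V →ₗ[ℝ] V)ˣ => (u.1 f).1 1) hg
    rw [one_mul] at h2
    refine h2.trans ((dif_pos H.one_mem).trans ?_)
    exact congrArg (fun u : _ →ₗ[ℝ] _ => u v) σ.map_one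
  by_cases h : g ∈ H
  · simp only [dif_pos h] at h1
    exact congrArg Subtype.val (hσ ((LinearMap.ext h1).trans σ.map_one.symm))
  · simpa [h] using congrFun (h1 1) 0

end Vale.Agent.P216TK
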