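import Vale.Agent.P216TK.OriCov
import Vale.Agent.P216TK.Fi
import Vale.Agent.P216TK.T2Goal
import Vale.Agent.P216FL.OriC
import Vale.Agent.P216R.Bridge
import Vale.Agent.P216.H126U.U5

/-!
# P216TK: the class is not empty
-/

set_option linter.all false

open Set Topology Bundle
open scoped Manifold ContDiff

namespace Vale.Agent.P216TK

open Vale.Agent.P216R Vale.Agent.P216C
open Vale.Agent.P216T hiding E3

/-- passage to the orientation covering -/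
theorem start {G : Type} [Group G] (hG : Pk G)
    (hl : ∀ (m : ℕ) (τ : G →* GL (Fin m) ℝ), ¬ Function.Injective τ) {N : Type}
    [TopologicalSpace N] [T2Space N] [CompactSpace N] [ChartedSpace E3 N]
    [IsManifold 𝓘(ℝ, E3) ∞ N] (h : InC G N) : ∃ (H : Type) (_ : Group H), Pk H ∧ ¬ Lin H ∧
      ∃ (Q : Type) (_ : TopologicalSpace Q) (_ : ChartedSpace E3 Q) (_ : IsManifold 𝓘(ℝ, E3) ∞ Q)
        (U : Set Q) (g : Ten E3 Q), Mem (Cl H) U ∧ Met g U := by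
  obtain ⟨X, _, _, P, hX, h⟩ := h
  obtain ⟨Φ, hΦ⟩ := exists_ori E3 hX h
  obtain ⟨Q, _, r, q, h1, h2, h3⟩ := exists_sub h Φ.ker
  have := t2_sub h h1 h2.continuous h3
  have := compact_sub h h1
  have h4 : InC Φ.ker (Up h2) := ⟨X, _, _, r, hX, h1⟩
  have := h4.conn
  obtain ⟨g, hg⟩ := exists_met E3 (Up h2)
  refine ⟨Φ.ker, _, pk_sub hG _, fun ⟨ρ, hρ⟩ => ?_, Up h2, _, _, inferInstance, univ, g,
    ⟨⟨h4.homeo (Homeomorph.Set.univ _).symm, ori_of_fl (hΦ (Up h2) r (Up.pr h2) h1 (Up.ld h2) h3)⟩,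
      isOpen_univ, isCompact_univ, fun x _ y _ k => disjoint_nhds_nhds.2 k, isPreconnected_univ⟩, hg⟩
  obtain ⟨m, τ, hτ⟩ := lin_of_sub Φ.ker ρ hρ
  exact hl m τ hτ

/-- what is known on the fundamental group -/
def OldGoal : Prop :=
  ∀ (E : Type) [NormedAddCommGroup E] [NormedSpace ℝ E] [FiniteDimensional ℝ E]
    (M : Type) [MetricSpace M] [CompactSpace M] [ChartedSpace E M] [IsManifold 𝓘(ℝ, E) ∞ M]
    [RiemannianBundle (fun x : M => TangentSpace 𝓘(ℝ, E) x)]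
    [IsContMDiffRiemannianBundle 𝓘(ℝ, E) ∞ E (fun x : M => TangentSpace 𝓘(ℝ, E) x)]
    [IsRiemannianManifold 𝓘(ℝ, E) M] (x₀ : M), Module.finrank ℝ E = 3 →
    (P216.primeClosedGeodesicImages M).Finite →
    CC (FundamentalGroup M x₀) ∧ NVC (FundamentalGroup M x₀) ∧
      ∀ (m : ℕ) (τ : FundamentalGroup M x₀ →* GL (Fin m) ℝ), ¬ Function.Injective τ

theorem t0_of_old (old : OldGoal) (tf : TfGoal) (bs : BsGoal) (t2 : T2Goal) : T0 := by
  intro E _ _ _ M _ _ _ _ _ _ _ _ h3 hfin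
  obtain ⟨x₀⟩ : Nonempty M := inferInstance
  obtain ⟨h1, h2, h4⟩ := old E M x₀ h3 hfin
  obtain ⟨L⟩ := exists_equiv_E3 h3
  have := P216.H126U.preconnectedSpace_of_riemannian E (M := M)
  have h5 := (inC_pi1 E x₀).homeo (Re.homeo L M).symm
  have h6 := tf _ h1 h2 _ h5
  exact start ⟨h1, h2, h6, t2 E M x₀ hfin h6 (bs _ h1 h2 _ h5)⟩ h4 h5

end Vale.Agent.P216TK
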