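import Vale.Agent.P216T.Defs
import Vale.Agent.P216TE.Ends
import Vale.Agent.P216MG.CSA

/-!
A wall with a cyclic stabiliser has no hyperbolic element.
-/

set_option linter.all false

open Set MulAction
open scoped Pointwise
open Vale.Agent.P216TE

namespace Vale.Agent.P216TK

variable {G : Type} [Group G] {ga g w : G} {B : Set G}

/-- `B` is invariant under `ga` and almost invariant modulo `ga` -/
structure Wl (ga : G) (B : Set G) : Prop where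
  inv : ∀ u, ga * u ∈ B ↔ u ∈ B
  fin : ∀ s : G, ∃ F : Set G, F.Finite ∧ ∀ u, ¬ (u ∈ B ↔ u * s ∈ B) → ∃ n : ℤ, ∃ f ∈ F, u = ga ^ n * f

theorem Wl.compl (h : Wl ga B) : Wl ga Bᶜ :=
  ⟨fun u => (h.inv u).not, fun s => (h.fin s).imp fun F hF => ⟨hF.1, fun u hu =>
    hF.2 u fun e => hu e.not⟩⟩

theorem Wl.fix (h : Wl ga B) (n : ℤ) : ga ^ n • B = B :=
  (stabilizer G B).zpow_mem (x := ga) (inv_mem_iff.1 (Set.ext fun u => by
    rw [mem_inv_smul_set_iff]; exact h.inv u)) n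

theorem hyp_pow (h : w • B ⊂ B) (n : ℕ) : w ^ (n + 1) • B ⊂ B := by
  induction n with
  | zero => simpa using h
  | succ n ih => rw [pow_succ', mul_smul]; exact (smul_set_mono ih.le).trans_ssubset h

theorem hyp_zpow (h : w • B ⊂ B) {n : ℤ} (hn : n ≠ 0) : w ^ n • B ≠ B := fun e => by
  have : w ^ n.natAbs ∈ stabilizer G B := by
    rcases Int.natAbs_eq n with f | f
    · rw [← zpow_natCast, ← f]; exact e
    · rw [← inv_mem_iff, ← zpow_natCast, ← zpow_neg, ← f]; exact e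
  obtain ⟨m, hm⟩ := Nat.exists_eq_succ_of_ne_zero (Int.natAbs_ne_zero.2 hn)
  rw [hm] at this
  exact (hyp_pow h m).ne this

theorem hyp_compl (h : w • B ⊂ B) : w⁻¹ • Bᶜ ⊂ Bᶜ := by
  rw [smul_set_compl]
  refine ⟨compl_subset_compl.2 (subset_smul_set_iff.2 (by simpa using h.le)), fun e => h.2 ?_⟩
  simpa using (smul_set_mono (a := w) (compl_subset_compl.1 e))

theorem hyp_mem (h : w • B ⊂ B) : ∀ u ∈ B, w * u ∈ B := fun u hu => h.le ⟨u, hu, rfl⟩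

theorem Wl.leave (h : Wl ga B) (hw : w • B ⊂ B) (y : G) : ∃ n : ℕ, (w ^ n)⁻¹ * y ∉ B := by
  by_contra! hy
  obtain ⟨v, hv, hv'⟩ := exists_of_ssubset hw
  obtain ⟨F, hF, h1⟩ := h.fin (y⁻¹ * (w⁻¹ * v))
  choose i f f1 f2 using fun n : ℕ => h1 ((w ^ n)⁻¹ * y) fun e => hv' (by
    simpa [mem_smul_set_iff_inv_smul_mem, mul_assoc] using nest_pow (hyp_mem hw) n _ (e.1 (hy n)))
  obtain ⟨n, -, m, -, e, h2⟩ := infinite_univ.exists_ne_map_eq_of_mapsTo (fun n _ => f1 n) hF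
  refine hyp_zpow hw (n := (m : ℤ) - n) (by omega) ?_
  rw [show w ^ ((m : ℤ) - n) = ((w ^ n)⁻¹ * y) * ((w ^ m)⁻¹ * y)⁻¹ by group, f2, f2, h2,
    show ga ^ i n * f m * (ga ^ i m * f m)⁻¹ = ga ^ (i n - i m) by group, h.fix]

theorem Wl.enter (h : Wl ga B) (hw : w • B ⊂ B) (y z : G) :
    ∃ n : ℕ, w ^ n * y ∈ B ∧ w ^ n * z ∈ B := by
  obtain ⟨n, hn⟩ := h.compl.leave (hyp_compl hw) y
  obtain ⟨m, hm⟩ := h.compl.leave (hyp_compl hw) z
  simp only [inv_pow, inv_inv, mem_compl_iff, not_not] at hn hm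
  exact ⟨m + n, by rw [pow_add, mul_assoc]; exact nest_pow (hyp_mem hw) m _ hn,
    by rw [add_comm, pow_add, mul_assoc]; exact nest_pow (hyp_mem hw) n _ hm⟩

theorem Wl.hyp (h : Wl ga B) {F : Set G} (hF : ∀ g : G, ∃ a ∈ F, ∃ k : ℤ, IsConj g (a ^ k))
    (hw : w • B ⊂ B) : ∃ a ∈ F, ∃ u, ¬ (u ∈ B ↔ u * a ∈ B) ∧ ∃ k : ℤ, w = u * a ^ k * u⁻¹ := by
  obtain ⟨a, ha, k, hk⟩ := hF w
  obtain ⟨y, hy⟩ := isConj_iff.1 hk.symm
  obtain ⟨n, hn⟩ := h.leave hw y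
  obtain ⟨m, hm, -⟩ := h.enter hw y y
  have pw : ∀ i : ℤ, w ^ i * y = y * a ^ (k * i) := fun i => by
    rw [← hy, conj_zpow, ← zpow_mul]; group
  have h1 : y * a ^ (k * m) ∈ B := by rw [← pw]; simpa using hm
  have h2 : y * a ^ (k * (-n)) ∉ B := by rw [← pw]; simpa using hn
  obtain ⟨i, hi⟩ := cross h1 h2
  exact ⟨a, ha, _, hi, k, by rw [← hy]; group⟩

/-- the translates between two translates are finitely many -/
theorem Wl.eq (h : Wl ga B) (h1 : B.Nonempty) {z : G} (h2 : z ∉ B) {u v c : G} (hc : c • B = B)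
    (hu : u • B ⊆ B) (e : c • v • B = u • B) (hv : v • B ⊆ u • B) : v • B = u • B := by
  obtain ⟨y, hy⟩ := h1.smul_set (a := v)
  obtain ⟨F, hF, h3⟩ := h.fin (y⁻¹ * z)
  have fi : {S : Set G | (∃ k : G, S = k • B) ∧ v • B ⊆ S ∧ S ⊆ B}.Finite := by
    refine (hF.image fun f => (y * f⁻¹) • B).subset ?_
    rintro _ ⟨⟨k, rfl⟩, a1, a2⟩
    obtain ⟨n, f, hf, e⟩ := h3 (k⁻¹ * y) fun e => h2 (a2 (by
      simpa [mem_smul_set_iff_inv_smul_mem, mul_assoc] using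
        e.1 (mem_smul_set_iff_inv_smul_mem.1 (a1 hy))))
    exact ⟨f, hf, by
      rw [show k = y * f⁻¹ * ga ^ (-n) by rw [zpow_neg, mul_assoc, ← mul_inv_rev, ← e]; group,
        mul_smul (y * f⁻¹), h.fix]⟩
  have mp : MapsTo (fun S : Set G => c • S) {S | (∃ k : G, S = k • B) ∧ v • B ⊆ S ∧ S ⊆ B}
      {S | (∃ k : G, S = k • B) ∧ v • B ⊆ S ∧ S ⊆ B} := by
    rintro _ ⟨⟨k, rfl⟩, a1, a2⟩
    exact ⟨⟨c * k, (mul_smul _ _ _).symm⟩, hv.trans (e ▸ smul_set_mono a1),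
      (smul_set_mono a2).trans hc.le⟩
  obtain ⟨S, hS, e1⟩ := ((fi.injOn_iff_bijOn_of_mapsTo mp).1
    (MulAction.injective c).injOn).surjOn ⟨⟨v, rfl⟩, subset_rfl, hv.trans hu⟩
  exact hv.antisymm (e.ge.trans ((smul_set_mono hS.2.1).trans (le_of_eq e1)))

theorem wall {G : Type} [Group G] [Group.FG G] (h : P216T.Pk G) {ga g : G} {B : Set G}
    (hB : ∀ u, ga * u ∈ B ↔ u ∈ B)
    (hf : ∀ s : G, ∃ F : Set G, F.Finite ∧ ∀ u, ¬ (u ∈ B ↔ u * s ∈ B) →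
      ∃ n : ℤ, ∃ f ∈ F, u = ga ^ n * f)
    (hn : ∀ k : G, (∀ u ∈ B, k * u ∈ B) ∨ (∀ u ∉ B, k * u ∉ B) ∨ (∀ u ∈ B, k * u ∉ B) ∨
      (∀ u ∉ B, k * u ∈ B))
    (hg : ∀ u ∈ B, g * u ∈ B) (h1 : (1 : G) ∈ B) (h2 : g⁻¹ ∉ B) : False := by
  have W : Wl ga B := ⟨hB, hf⟩
  have sb : ∀ {k : G}, (∀ u ∈ B, k * u ∈ B) → k • B ⊆ B := fun h => smul_set_subset_iff.2 h
  have Hg : g • B ⊂ B := ⟨sb hg, fun e => h2 (by
    simpa using mem_smul_set_iff_inv_smul_mem.1 (e h1))⟩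
  obtain ⟨F, hF, hc⟩ := h.cc
  have tz : ∀ {x : G} {n : ℤ}, x ≠ 1 → x ^ n = 1 → n = 0 := fun {x n} hx e => by_contra fun hn =>
    hx (h.tf x n.natAbs (Int.natAbs_ne_zero.2 hn) (by
      rcases Int.natAbs_eq n with f | f
      · rw [← zpow_natCast, ← f, e]
      · rw [← inv_eq_one, ← zpow_natCast, ← zpow_neg, ← f, e]))
  by_cases e : ga = 1
  · have inj : Function.Injective fun n : ℕ => g ^ n := injective_pow_iff_not_isOfFinOrder.2 fun o => by
      obtain ⟨n, hn, e⟩ := isOfFinOrder_iff_pow_eq_one.1 o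
      exact h2 (by simpa [h.tf g n hn.ne' e] using h1)
    obtain ⟨c, hc⟩ := vc_of_ends hF hc (A := B)
      (fun s => let ⟨F, a, b⟩ := hf s; a.subset fun u hu => by simpa [e] using b u hu)
      (infinite_of_injective_forall_mem inj fun n => by simpa using nest_pow hg n _ h1)
      (infinite_of_injective_forall_mem (f := fun n : ℕ => (g ^ (n + 1))⁻¹)
        (fun a b e => by simpa using inj (inv_inj.1 e))
        fun n m => h2 (by simpa [pow_succ'] using nest_pow hg n _ m))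
    exact h.nvc c hc
  have Hc : ∀ i j : ℤ, (ga ^ i * g * ga ^ j) • B = ga ^ i • g • B := fun i j => by
    rw [mul_smul, W.fix, mul_smul]
  have Hh : ∀ i j : ℤ, (ga ^ i * g * ga ^ j) • B ⊂ B := fun i j => by
    rw [Hc]
    exact ⟨(smul_set_mono Hg.le).trans (W.fix i).le,
      fun e => Hg.2 (smul_set_subset_smul_set_iff.1 ((W.fix i).le.trans e))⟩
  have un : ∀ (b : G) (k l i j i' j' : ℤ), b ^ k = ga ^ i * g * ga ^ j →
      b ^ l = ga ^ i' * g * ga ^ j' → b ^ (l - k) • B ⊆ B → l = k := fun b k l i j i' j' e1 e2 e3 => by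
    have a1 := W.eq ⟨1, h1⟩ h2 (u := b ^ k) (v := b ^ l) (W.fix (i - i')) (e1 ▸ (Hh i j).le)
      (by rw [e1, e2, Hc, Hc, smul_smul, ← zpow_add, sub_add_cancel])
      (by rw [show b ^ l = b ^ k * b ^ (l - k) by group, mul_smul]; exact smul_set_mono e3)
    have a2 : b ^ (l - k) ∈ stabilizer G B := by
      rw [mem_stabilizer_iff, show b ^ (l - k) = (b ^ k)⁻¹ * b ^ l by group, mul_smul, a1,
        inv_smul_smul]
    by_contra n
    refine hyp_zpow (e1 ▸ Hh i j) (sub_ne_zero.2 n) ?_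
    rw [← zpow_mul, mul_comm, zpow_mul]
    exact (stabilizer G B).zpow_mem a2 k
  have un2 : ∀ (b : G) (k l i j i' j' : ℤ), b ^ k = ga ^ i * g * ga ^ j →
      b ^ l = ga ^ i' * g * ga ^ j' → l = k := fun b k l i j i' j' e1 e2 => by
    have cm : ∀ (x : ℤ) (n : ℕ), (b ^ x) ^ n * b ^ (l - k) = b ^ (l - k) * ((b ^ x) ^ n * 1) :=
      fun x n => by group
    rcases hn (b ^ (l - k)) with a | a | a | a
    · exact un b k l i j i' j' e1 e2 (sb a)
    · refine (un b l k i' j' i j e2 e1 (sb fun u hu => by_contra fun n => a _ n ?_)).symm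
      rwa [show b ^ (l - k) * (b ^ (k - l) * u) = u by group]
    · obtain ⟨n, a1, a2⟩ := W.enter (e1 ▸ Hh i j) (b ^ (l - k)) 1
      exact (a _ a2 (cm k n ▸ a1)).elim
    · obtain ⟨n, a1, a2⟩ := W.compl.enter (hyp_compl (e1 ▸ Hh i j)) (b ^ (l - k)) 1
      rw [← zpow_neg] at a1 a2
      exact (a1 (cm (-k) n ▸ a _ a2)).elim
  choose a a1 u a2 k a3 using fun n : ℤ => W.hyp hc (Hh n 0)
  choose Φ b1 b2 using hf
  choose j f c1 c2 using fun n => b2 (a n) (u n) (a2 n)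
  obtain ⟨n, -, m, -, e1, e2⟩ := infinite_univ.exists_ne_map_eq_of_mapsTo
    (f := fun n => (a n, f n)) (fun n _ => mem_biUnion (a1 n) (mk_mem_prod rfl (c1 n)))
    (hF.biUnion fun x _ => (finite_singleton x).prod (b1 x))
  have d1 : ∀ n, (f n * a n * (f n)⁻¹) ^ k n = ga ^ (n - j n) * g * ga ^ j n := fun n => by
    rw [conj_zpow, show ga ^ (n - j n) * g * ga ^ j n =
      ga ^ (-j n) * (ga ^ n * g * ga ^ (0 : ℤ)) * ga ^ j n by group, a3, c2]
    group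
  have d2 := d1 n
  rw [(Prod.mk.inj e2).1, (Prod.mk.inj e2).2] at d2
  have d3 := d1 m
  rw [un2 _ _ _ _ _ _ _ d2 d3, d2] at d3
  have d4 : g * ga ^ (j n - j m) * g⁻¹ = ga ^ (j n - j m + (m - n)) := by
    rw [show g * ga ^ (j n - j m) * g⁻¹ = ga ^ (j n - n) * (ga ^ (n - j n) * g * ga ^ j n) *
      ga ^ (-j m) * g⁻¹ by group, d3]
    group
  have d5 : Commute (ga ^ (j n - j m)) g := by
    by_cases o : ga ^ (j n - j m) = 1
    · rw [o]; exact Commute.one_left g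
    · exact (P216MG.csa_of_cyclic h.tf h.cen).mal _ g o (d4 ▸ Commute.zpow_zpow_self _ _ _)
  rw [← d5.eq, mul_inv_cancel_right, zpow_add, left_eq_mul] at d4
  exact e1 (by linarith [tz e d4])

end Vale.Agent.P216TK
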