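import Vale.Agent.P216TK.Tkb
import Vale.Agent.P216FA.Plan
import Vale.Agent.P216B.Fam

/-!
# P216TK: bounded curvature at bounded distance inside the region
-/

open scoped Manifold ContDiff Topology ENNReal
open Set MeasureTheory Real

set_option linter.unusedSectionVars false

namespace Vale.Agent.P216TK

open Vale.Agent.P216R Vale.Agent.P216SG Vale.Agent.P216DC Vale.Agent.P216FA
open Vale.Agent.P216BF Vale.Agent.P216N

section

variable {M : Type} [TopologicalSpace M] [ChartedSpace E3 M] [IsManifold 𝓘(ℝ, E3) ∞ M]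
  [MeasurableSpace M] [BorelSpace M] {g : ℝ → Ten E3 M} {b d : M → ℝ} {T₀ T₁ t : ℝ} {U : Set M}
  {y : M}

/-- canonical neighbourhoods in the form used for bounded curvature at bounded distance -/
theorem cnb' {v a C η σ α ε C₀ A w : ℝ} (hF : SF g b d T₀ T₁) (hU : Sl b d T₀ T₁ U t)
    (hp : ∀ W s, Sl b d T₀ T₁ W s → s ∈ Icc (t - a * σ ^ 2) t → Pin (g s) W α) (hα : 0 < α)
    (k3 : CN ε C₀ A w (g t) U y) (hA : 1000 ≤ A) (hσ : 0 < σ) (h1 : σ ^ 2 * Sc (g t) y = 1)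
    (hC0 : 0 < C) (hC : C₀ ≤ C) (hη : 0 < η) (ha : 0 < a)
    (h3 : σ ^ 2 * exp (3 + 6 * C / η) ≤ η * α)
    (h4 : Cen (g t) U y σ ε → MN v (g t) U y σ ∧
      ParB g U y t (a * σ) (a * σ ^ 2) (C / σ ^ 2)) : CNb v A a C η g U t y σ := by
  have hσ2 := pow_pos hσ 2
  have k0 : Sc (g t) y = 1 / σ ^ 2 := by field_simp; linarith
  have k4 := sg_eq' hσ h1
  have k5 : ∀ u ∈ bl (g t) U y (A * σ), Sc (g t) u ≤ C / σ ^ 2 := fun u hu => by
    refine (k3.dt.two u (k4.symm ▸ hu)).2.trans ?_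
    rw [k0, mul_one_div]
    exact div_le_div_of_nonneg_right hC hσ2.le
  refine ⟨k5, fun γ hγ hγ' => ?_⟩
  obtain ⟨l1, l5⟩ := h4 (k4 ▸ k3.nt.neck (by rw [k4, ← hγ']; exact al_of_minGeo hγ hσ.le))
  have l2 := mul_pos ha hσ2
  refine ⟨l1, fun u hu => ?_, l5, fun s hs z hz => ?_⟩
  · exact pin_sec (hF.met hU) (hp U t hU ⟨by linarith, le_rfl⟩) (bl_subset hu) hα hη (C := 6 * C)
      (by positivity) hσ ((k5 u (bl_mono (mul_le_mul_of_nonneg_right hA hσ.le) hu)).trans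
        (div_le_div_of_nonneg_right (by linarith) hσ2.le)) h3
  · have h1 := hF.subset_liv (by linarith) l5.1.toFam hz
    obtain ⟨W, hW, hW'⟩ := hF.exists_sl (by linarith) hU.mem_Icc.2 h1 hs
    have h4 := (abs_le.1 (abs_sc_le3 finrank_E3 (hF.met hW) (hW' h1) (l5.2 s hs z hz))).2
    exact pin_sec (hF.met hW) (hp W s hW hs) (hW' h1) hα hη (C := 6 * C) (by positivity) hσ
      (by rwa [mul_div_assoc]) h3

variable {F : Dat M} {W : Set M} {r τ r' τ' s : ℝ}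

theorem reg_mono (h : F.Reg r τ W s y) (hr : r ≤ r') (hτ : τ ≤ τ') : F.Reg r' τ' W s y :=
  ⟨h.prec, by linarith [h.le], h.mem, by linarith [h.dle]⟩

theorem reg_le (h : F.Reg r τ W s y) : s ≤ F.t := h.prec.elim (fun h => h.1.le) fun h => h.1.le

theorem reg_bl {κ CD α ρ : ℝ} {z : M} (he : F.Env κ CD r' τ' α) (h : F.Reg r τ W s y) (hr : r ≤ r')
    (hτ : τ ≤ τ') (hz : z ∈ bl (F.g s) W y ρ) : F.Reg (r + ρ) τ W s z :=
  ⟨h.prec, h.le, bl_subset hz, by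
    linarith [he.d1 W s y (reg_mono h hr hτ) z (bl_subset hz), (mem_bl_iff.1 hz).2, h.dle]⟩

theorem parB_le {ρ ρ' K K' : ℝ} (h : ParB g U y t ρ τ K) (hm : Met (g t) U) (hρ : ρ' ≤ ρ)
    (hK : K ≤ K') : ParB g U y t ρ' τ K' :=
  ⟨SF.rf_sub h.1 Subset.rfl (hm.isOpen_bl y ρ') (bl_mono hρ),
    fun s hs z hz => rmB_mono (h.2 s hs z (bl_mono hρ hz)) hK⟩

end

/-- **BCA** -/
theorem bca (sc : SCALE) (win : WIN) (winn : WINN) (nkf : NKF) (bcbd : BCBD) (nm : NECKM) :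
    BCA := by
  intro c
  obtain ⟨eF, heF, nkf⟩ := nkf (10 * c 0 ^ 2)
  obtain ⟨eM, heM, v, hv, nm⟩ := nm
  refine ⟨min eF eM, lt_min heF heM, fun P hc hP K₁ A₁ => ?_⟩
  subst hc
  obtain ⟨e1, e2⟩ := le_min_iff.1 hP.εe
  obtain ⟨a₁, ha₁, win⟩ := win P _ hP
  obtain ⟨a₂, ha₂, winn⟩ := winn P _ hP
  obtain ⟨a, ha, a1, a2, a3⟩ : ∃ a > 0, a ≤ a₁ ∧ a ≤ a₂ ∧ a ≤ 1 :=
    ⟨min a₁ (min a₂ 1), by positivity, min_le_left _ _, (min_le_right _ _).trans (min_le_left _ _),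
      (min_le_right _ _).trans (min_le_right _ _)⟩
  obtain ⟨Q, q1, q2⟩ : ∃ Q, K₁ ≤ Q ∧ max (8 * P.c 0 * P.L) 1 ≤ Q :=
    ⟨max _ _, le_max_left _ _, le_max_right _ _⟩
  have q3 : 1 ≤ Q := (le_max_right _ _).trans q2
  have q4 : max P.L 1 ≤ Q := (max_le_max (le_mul_of_one_le_left hP.L0.le
    (by linarith [hP.c1 0])) le_rfl).trans q2
  obtain ⟨ρ, hρ, e⟩ : ∃ ρ > 0, 1 / ρ ^ 2 = Q :=
    ⟨(√Q)⁻¹, by positivity, by rw [inv_pow, one_div, inv_inv, sq_sqrt (by positivity)]⟩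
  have hρ1 : ρ ^ 2 ≤ 1 := (one_le_div (by positivity)).1 (e ▸ q3)
  have hC : 0 < max P.C 16 := lt_max_of_lt_right (by norm_num)
  obtain ⟨K, η, hη, bcbd⟩ := bcbd v hv P.A hP.A1 (a ^ 2 / 4) (by positivity) (max P.C 16) (A₁ / ρ)
  refine ⟨K / ρ ^ 2, fun r T => ?_⟩
  obtain ⟨l₁, hl₁, r', hr', win⟩ := win a ⟨ha, a1⟩ (r + A₁) T
  obtain ⟨l₂, hl₂, winn⟩ := winn a ⟨ha, a2⟩ r' T
  obtain ⟨l, l1, l2, l3, l4, l5, l6⟩ : ∃ l, l₁ ≤ l ∧ l₂ ≤ l ∧ r ≤ l ∧ r + A₁ ≤ l ∧ T + 1 ≤ l ∧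
      exp (3 + 6 * max P.C 16 / η) / η ≤ l :=
    ⟨max (max (max l₁ l₂) (max r (r + A₁))) (max (T + 1) _), by simp, by simp, by simp, by simp,
      by simp, (le_max_right _ _).trans (le_max_right _ _)⟩
  have l0 := hl₁.trans_le l1
  refine ⟨l, l0, fun X F W s y hF hδ hy hK => ?_⟩
  have hT : T ≤ l := by linarith
  have hW := sc.regSl X F _ _ _ W s y hF.bas hF.env.init (reg_mono hy l3 hT)
  have hg := hF.bas.sf.met hW
  have hH := hF.bas.sf.sl_hs hW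
  have e3 : A₁ / ρ * ρ = A₁ := div_mul_cancel₀ _ hρ.ne'
  have := bcbd X.M F.g W s y ρ hρ hg hH ((hg.cpl (hF.bas.sf.sl_cpt hW)).cpt hy.mem _)
    (e ▸ hK.trans q1)
  rw [e3] at this
  refine this fun z hz σ hσ hσ' hz1 => ?_
  have hσ2 := pow_pos hσ 2
  have k0 : Sc (F.g s) z = 1 / σ ^ 2 := eq_div_of_mul_eq hσ2.ne' ((mul_comm _ _).trans hz1)
  have k2 : σ ^ 2 ≤ ρ ^ 2 := pow_le_pow_left₀ hσ.le hσ' 2
  have k1 : Q ≤ Sc (F.g s) z := by rw [k0, ← e]; exact one_div_le_one_div_of_le hσ2 k2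
  have k3 := reg_bl hF.env hy l3 hT hz
  have k4 : a ^ 2 / 4 * σ ^ 2 ≤ 1 :=
    mul_le_one₀ (by linarith [pow_le_one₀ (n := 2) ha.le a3]) hσ2.le (k2.trans hρ1)
  have k5 := sg_eq' hσ hz1
  refine cnb' hF.bas.sf hW (fun V u hV hu => hF.env.pin V u hV
    ⟨by linarith [hu.1, hy.le], hu.2.trans (reg_le hy)⟩) l0 (hF.cn W s z (reg_mono k3 l4 hT)
      (((le_max_left _ _).trans q4).trans k1)) hP.A1 hσ hz1 hC (le_max_left _ _) hη
    (by positivity) ((mul_le_of_le_one_left (exp_pos _).le (k2.trans hρ1)).trans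
      (by rwa [div_le_iff₀' hη] at l6)) fun h => ⟨nm X.M _ W z σ P.ε σ hg hH e2 h hσ hz1, ?_⟩
  rcases win X F W s z _ (sc.ctlMono X F P l l₁ hF hl₁ l1) k3 (q4.trans k1) le_rfl with k | ⟨u, k⟩
  · have e4 : wt a (Sc (F.g s) z) = a ^ 2 / 4 * σ ^ 2 := by rw [wt, k0]; field_simp
    have e5 : wr a (Sc (F.g s) z) = a * σ := by rw [wr, div_eq_mul_inv]; exact congrArg _ k5
    rw [e4, e5] at k
    refine parB_le k hg (mul_le_mul_of_nonneg_right (by nlinarith only [ha, a3]) hσ.le) ?_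
    rw [k0, mul_one_div]
    exact div_le_div_of_nonneg_right (le_max_right _ _) hσ2.le
  · exact (winn X F W s z u (sc.ctlMono X F P l l₂ hF hl₂ l2) (reg_mono k3 hr' le_rfl) (q2.trans k1)
      hδ (k5.symm ▸ (nkf X _ W z σ P.ε hg hH e1 h).2) k).elim

end Vale.Agent.P216TK
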