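import Vale.Agent.P216TK.Uc
import Vale.Agent.P216T.Univ
import Vale.Agent.P216FL.Ori

/-!
# P216TK: the orientation covering
-/

set_option linter.all false

open Set Topology Filter
open scoped Manifold ContDiff

noncomputable section

namespace Vale.Agent.P216TK

open Vale.Agent.P216T Vale.Agent.P216R Vale.Agent.P216FL

/-- the sign -/
def sg (r : ℝ) : ℤˣ := if 0 < r then 1 else -1

theorem sg_pos {a : ℝ} (h : a ≠ 0) : 0 < a * ((sg a : ℤ) : ℝ) := by
  unfold sg
  split_ifs with k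
  · simpa using k
  · simpa using lt_of_le_of_ne (not_lt.1 k) h

theorem sg_eq {a : ℝ} {u : ℤˣ} (h : 0 < a * ((u : ℤ) : ℝ)) : sg a = u := by
  rcases Int.units_eq_one_or u with rfl | rfl
  · exact if_pos (by simpa using h)
  · exact if_neg (not_lt.2 (le_of_lt (by simpa using h)))

theorem sg_mul {a b c : ℝ} (h : 0 < a * (b * c)) : sg a = sg b * sg c := by
  have hb : b ≠ 0 := fun e => by simp [e] at h
  have hc : c ≠ 0 := fun e => by simp [e] at h
  refine sg_eq (ss_trans h ?_)
  push_cast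
  exact ss_mul (sg_pos hb) (sg_pos hc)

variable {E : Type} [NormedAddCommGroup E] [NormedSpace ℝ E] [FiniteDimensional ℝ E]
  {N : Type} [TopologicalSpace N] [ChartedSpace E N] [IsManifold 𝓘(ℝ, E) ∞ N]
  {G : Type} [Group G] {X : Type} [TopologicalSpace X] [MulAction G X] {P : X → N}

theorem isOri_mul {Q : Type} [TopologicalSpace Q] [ChartedSpace E Q] {o : Q → ℝ} {U : Set Q}
    (h : IsOri E o U) {c : ℝ} (hc : c ≠ 0) : IsOri E (fun x => c * o x) U :=
  ⟨fun x hx => mul_ne_zero hc (h.ne x hx), fun x hx => (h.loc x hx).mono fun y hy => by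
    nlinarith [mul_pos (mul_self_pos.2 hc) hy]⟩

variable (E) in
/-- **The orientation character.** -/
theorem exists_ori (hX : SC X) (h : Quo G P) : ∃ Φ : G →* ℤˣ,
    ∀ (Q : Type) [TopologicalSpace Q] [ChartedSpace E Q] [IsManifold 𝓘(ℝ, E) ∞ Q] (π : X → Q)
      (q : Q → N), Quo Φ.ker π → LD E q univ → (∀ x, q (π x) = P x) → Ori E (univ : Set Q) := by
  obtain ⟨σ, Φ, h1, h2, h3⟩ := h.cech hX (fun i : N => (chartAt E i).source)
    (fun i => (chartAt E i).open_source) (fun b => ⟨b, mem_chart_source E b⟩)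
    (fun i j b => sg (jac E (chartAt E i) b) * sg (jac E (chartAt E j) b))
    (fun i j b hb => by
      filter_upwards [(isOri_chart i).loc b hb.1, (isOri_chart j).loc b hb.2] with y k k'
      rw [sg_mul k, sg_mul k', mul_mul_mul_comm, Int.units_mul_self, mul_one])
    (fun i b _ => Int.units_mul_self _)
    (fun i j l b _ => by
      rw [mul_assoc, ← mul_assoc (sg (jac E (chartAt E j) b)), Int.units_mul_self, one_mul])
  refine ⟨Φ, fun Q _ _ _ π q h' hq he => ?_⟩
  choose s hs using h'.surj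
  refine ⟨fun y => ((σ (q y) (s y) : ℤ) : ℝ) * jac E q y, isOri_of_local fun x _ => ?_⟩
  obtain ⟨e, rfl⟩ := h'.surj x
  obtain ⟨W, hW, hWo, heW⟩ := eventually_nhds_iff.1 ((h1 (P e) e (mem_chart_source E _)).and
    (h.continuous.continuousAt.eventually
      ((chartAt E (P e)).open_source.mem_nhds (mem_chart_source E _))))
  have hV := h'.isOpenMap W hWo
  refine ⟨π '' W, ⟨e, heW, rfl⟩, (isOri_mul ((isOri_chart (P e)).comap (hq.mono hV (subset_univ _))
    ?_) (c := ((σ (P e) e : ℤ) : ℝ)) (by simp)).congr hV ?_⟩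
  · rintro _ ⟨z, hz, rfl⟩
    rw [he]
    exact (hW z hz).2
  rintro _ ⟨z, hz, rfl⟩
  obtain ⟨t, ht⟩ := h'.orb z (s (π z)) (hs _).symm
  have k1 : jac E (chartAt E (P z)) (P z) = 1 := by rw [jac, md_chart_self]; exact LinearMap.det_id
  have k2 : σ (P z) (s (π z)) = sg (jac E (chartAt E (P e)) (P z)) * σ (P e) e := by
    rw [← ht]
    refine (h3 _ t z (mem_chart_source E _)).trans ?_
    rw [show Φ t = 1 from t.2, inv_one, mul_one, h2 _ (P e) z (mem_chart_source E _) (hW z hz).2,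
      (hW z hz).1, k1, show sg 1 = 1 from if_pos one_pos, one_mul]
  have k3 := sg_pos ((isOri_chart (P e)).ne _ (hW z hz).2)
  have k4 := mul_self_pos.2 (jac_ne (hq.inj (π z) trivial))
  have k5 : 0 < ((σ (P e) e : ℤ) : ℝ) * ((σ (P e) e : ℤ) : ℝ) := mul_self_pos.2 (by simp)
  rw [he, k2]
  push_cast
  nlinarith [mul_pos (mul_pos k3 k4) k5]

end Vale.Agent.P216TK
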