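import Mathlib

/-!
Strainers: a ball of definite volume in a space with a lower curvature bound contains a ball of
definite size with a universal volume ratio.
-/

set_option linter.all false

open Set Metric MeasureTheory
open scoped ENNReal

namespace Vale.Agent.P216TK

noncomputable section

variable {X : Type*} [MetricSpace X] {S : Set X} {ι : Type} {P : ι → Bool → X} {x y z p q : X}
  {ρ : ℝ}

/-- cosine of the euclidean comparison angle at `y` -/
def ce (p y q : X) : ℝ := (dist y p ^ 2 + dist y q ^ 2 - dist p q ^ 2) / (2 * dist y p * dist y q)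

theorem ce_comm (p y q : X) : ce p y q = ce q y p := by
  simp only [ce, dist_comm p q]; ring

/-- intermediate points and the four point comparison on `S` -/
structure Cmp (S : Set X) : Prop where
  mid : ∀ y ∈ S, ∀ p ∈ S, ∀ s, 0 ≤ s → s ≤ dist y p → ∃ z, dist y z = s ∧ dist z p = dist y p - s
  quad : ∀ y ∈ S, ∀ p ∈ S, ∀ q ∈ S, ∀ r ∈ S, 0 < dist y p → 0 < dist y q → 0 < dist y r →
    ce q y r ≤ -1 + 1 / 10000 → -(3 / 100) ≤ ce p y q + ce p y r

theorem ce_le (h0 : 0 < dist z p) (h : 100 * dist z p ≤ dist z q) :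
    ce p z q * dist z p ≤ dist z q - dist p q + dist z p / 200 ∧
      dist z q - dist p q ≤ ce p z q * dist z p := by
  have h1 := dist_triangle z p q
  have h2 := dist_triangle p z q
  have h3 := dist_triangle_left z q p
  rw [dist_comm p z] at h2 h3
  have q0 : 0 < dist z q := by linarith
  have e : ce p z q * dist z p = (dist z p ^ 2 - (dist z q - dist p q) ^ 2) / (2 * dist z q) +
      (dist z q - dist p q) := by
    unfold ce; field_simp; ring
  rw [e]
  refine ⟨?_, le_add_of_nonneg_left (div_nonneg (by nlinarith) (by positivity))⟩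
  rw [add_comm, add_le_add_iff_left, div_le_iff₀ (by positivity)]
  nlinarith [sq_nonneg (dist z q - dist p q)]

/-- a strainer on a ball -/
structure St (S : Set X) (P : ι → Bool → X) (y : X) (ρ : ℝ) : Prop where
  pos : 0 < ρ
  sub : ball y ρ ⊆ S
  mem : ∀ i σ, P i σ ∈ S
  far : ∀ z ∈ ball y ρ, ∀ i σ, 200 * ρ ≤ dist z (P i σ)
  opp : ∀ z ∈ ball y ρ, ∀ i σ, ce (P i σ) z (P i !σ) ≤ -1 + 1 / 10000
  crs : ∀ z ∈ ball y ρ, ∀ i j, i ≠ j → ∀ σ τ, ce (P i σ) z (P j τ) ≤ 13 / 100

theorem St.nr (h : St S P y ρ) (hz : z ∈ ball y ρ) (hx : x ∈ ball y ρ) (i σ) :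
    100 * dist z x ≤ dist z (P i σ) := by
  have := h.far z hz i σ
  have := dist_triangle_right z x y
  rw [mem_ball] at hz hx
  linarith

theorem St.ps (h : St S P y ρ) (hz : z ∈ ball y ρ) (i σ) : 0 < dist z (P i σ) := by
  linarith [h.far z hz i σ, h.pos]

/-- the excess is almost constant -/
theorem St.exc (hS : Cmp S) (h : St S P y ρ) (hz : z ∈ ball y ρ) (hx : x ∈ ball y ρ) (i σ) :
    dist x (P i σ) + dist x (P i !σ) ≤ dist z (P i σ) + dist z (P i !σ) + dist z x / 25 := by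
  rcases (dist_nonneg (x := z) (y := x)).eq_or_lt with e | e
  · obtain rfl := dist_eq_zero.1 e.symm
    simp
  have h1 := mul_le_mul_of_nonneg_right (hS.quad z (h.sub hz) x (h.sub hx) _ (h.mem i σ) _
    (h.mem i !σ) e (h.ps hz _ _) (h.ps hz _ _) (h.opp z hz i σ)) e.le
  have h2 := (ce_le e (h.nr hz hx i σ)).1
  have h3 := (ce_le e (h.nr hz hx i !σ)).1
  linarith [add_mul (ce x z (P i σ)) (ce x z (P i !σ)) (dist z x)]

/-- a new pair -/
theorem St.step (hS : Cmp S) (h : St S P y ρ) {x : Bool → X} (hx : ∀ σ, x σ ∈ ball y (ρ / 4))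
    (h0 : 0 < dist (x true) (x false))
    (hf : ∀ i, |dist (x true) (P i true) - dist (x false) (P i true)| ≤
      dist (x true) (x false) / 100) :
    ∃ y', St S (fun o : Option ι => o.elim x P) y' (dist (x true) (x false) / 100000) := by
  have r0 := h.pos
  have hx' : ∀ σ, x σ ∈ ball y ρ := fun σ => ball_subset_ball (by linarith) (hx σ)
  obtain ⟨D, hD⟩ : ∃ D, dist (x true) (x false) = D := ⟨_, rfl⟩
  obtain ⟨y', e1, e2⟩ := hS.mid _ (h.sub (hx' true)) _ (h.sub (hx' false)) (D / 2) (by linarith)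
    (by linarith)
  have hD' : ∀ σ, dist (x σ) (x !σ) = D := fun σ => by cases σ <;> simp [← hD, dist_comm]
  rw [hD] at h0 hf e2 ⊢
  have e3 : ∀ σ, dist y' (x σ) = D / 2 := fun σ => by
    cases σ
    exacts [by linarith, by rwa [dist_comm]]
  have d1 : D < ρ / 2 := by
    linarith [dist_triangle_right (x true) (x false) y, mem_ball.1 (hx true), mem_ball.1 (hx false)]
  have s1 : ball y' (D / 100000) ⊆ ball y ρ := fun z hz => by
    have := dist_triangle4 z y' (x true) y
    rw [mem_ball] at hz ⊢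
    linarith [e3 true, mem_ball.1 (hx true)]
  have a1 : ∀ z ∈ ball y' (D / 100000), ∀ σ, D / 2 - D / 100000 ≤ dist z (x σ) ∧
      dist z (x σ) ≤ D / 2 + D / 100000 := fun z hz σ => by
    have := dist_triangle z y' (x σ)
    have := dist_triangle_left y' (x σ) z
    rw [mem_ball] at hz
    constructor <;> linarith [e3 σ]
  have o1 : ∀ z ∈ ball y' (D / 100000), ∀ σ, ce (x σ) z (x !σ) ≤ -1 + 1 / 10000 := fun z hz σ => by
    obtain ⟨b1, b2⟩ := a1 z hz σ
    obtain ⟨b3, b4⟩ := a1 z hz !σ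
    have b5 := dist_triangle_left (x σ) (x !σ) z
    rw [ce, hD', div_le_iff₀ (by nlinarith)]
    rw [hD'] at b5
    nlinarith [mul_le_mul b1 b3 (by linarith) dist_nonneg]
  have c1 : ∀ z ∈ ball y' (D / 100000), ∀ i σ τ, ce (x σ) z (P i τ) ≤ 13 / 100 := fun z hz i σ τ => by
    have hz' := s1 hz
    obtain ⟨b1, b2⟩ := a1 z hz σ
    obtain ⟨b3, b4⟩ := a1 z hz !σ
    have p1 : 0 < dist z (x σ) := by linarith
    have p2 : 0 < dist z (x !σ) := by linarith
    have k1 := hS.quad z (h.sub hz') _ (h.mem i !τ) _ (h.sub (hx' σ)) _ (h.sub (hx' !σ))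
      (h.ps hz' _ _) p1 p2 (o1 z hz σ)
    rw [ce_comm _ z (x σ), ce_comm _ z (x !σ)] at k1
    have k2 := (ce_le p1 (h.nr hz' (hx' σ) i !τ)).1
    have k3 := (ce_le p2 (h.nr hz' (hx' !σ) i !τ)).1
    have k4 := (ce_le p1 (h.nr hz' (hx' σ) i τ)).1
    have k5 := h.exc hS (hx' σ) hz' i τ
    have k7 : |dist (x σ) (P i !τ) - dist (x !σ) (P i !τ)| ≤ D / 20 := by
      have k8 := h.exc hS (hx' true) (hx' false) i true
      have k9 := h.exc hS (hx' false) (hx' true) i true
      have k10 := abs_le.1 (hf i)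
      rw [dist_comm (x false) (x true), hD] at k9
      rw [hD] at k8
      cases σ <;> cases τ <;> simp only [Bool.not_true, Bool.not_false] at * <;>
        exact abs_le.2 ⟨by linarith, by linarith⟩
    have k8 : |ce (x !σ) z (P i !τ)| ≤ 2 := by
      have k9 := ce_le p2 (h.nr hz' (hx' !σ) i !τ)
      have k10 := abs_le.1 (abs_dist_sub_le z (x !σ) (P i !τ))
      refine abs_le.2 ⟨le_of_mul_le_mul_right ?_ p2, le_of_mul_le_mul_right ?_ p2⟩ <;> linarith
    have k9 := mul_le_mul_of_nonneg_right k1 p1.le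
    have k10 : ce (x !σ) z (P i !τ) * (dist z (x σ) - dist z (x !σ)) ≤ 2 * (D / 50000) := by
      refine (le_abs_self _).trans ((abs_mul _ _).trans_le (mul_le_mul k8 (abs_le.2 ?_)
        (abs_nonneg _) (by norm_num)))
      constructor <;> linarith
    rw [dist_comm (x σ) z] at k5
    refine le_of_mul_le_mul_right ?_ p1
    rw [mul_sub] at k10
    rw [add_mul] at k9
    linarith [abs_le.1 k7]
  refine ⟨y', by positivity, s1.trans h.sub, ?_, fun z hz => ?_, fun z hz => ?_, fun z hz => ?_⟩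
  · rintro (_ | i) σ
    exacts [h.sub (hx' σ), h.mem i σ]
  · rintro (_ | i) σ
    · exact le_trans (by linarith) (a1 z hz σ).1
    · exact le_trans (by linarith) (h.far z (s1 hz) i σ)
  · rintro (_ | i) σ
    exacts [o1 z hz σ, h.opp z (s1 hz) i σ]
  · rintro (_ | i) (_ | j) e σ τ
    exacts [absurd rfl e, c1 z hz j σ τ, (ce_comm _ _ _).trans_le (c1 z hz i τ σ),
      h.crs z (s1 hz) i j (fun n => e (congrArg some n)) σ τ]

/-- counting: a pair of far points with almost the same coordinates -/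
theorem St.pair [MeasurableSpace X] [Fintype ι] (hι : Fintype.card ι ≤ 2) (h : St S P y ρ)
    {μ : Measure X} {w K l : ℝ} (w0 : 0 < w) (l0 : 0 < l) (l1 : l ≤ 1) (hl : 1000000 * K * l < w)
    (h1 : ENNReal.ofReal (w * (ρ / 4) ^ 3) ≤ μ (ball y (ρ / 4)))
    (h2 : ∀ z ∈ ball y ρ, μ (ball z (l * ρ)) ≤ ENNReal.ofReal (K * (l * ρ) ^ 3)) :
    ∃ x : Bool → X, (∀ σ, x σ ∈ ball y (ρ / 4)) ∧ l * ρ ≤ dist (x true) (x false) ∧
      ∀ i, |dist (x true) (P i true) - dist (x false) (P i true)| ≤ l * ρ / 100 := by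
  classical
  have r0 := h.pos
  by_contra! hn
  obtain ⟨n, hn1, hn2⟩ : ∃ n : ℕ, 50 / l ≤ n ∧ (n : ℝ) ≤ 51 / l :=
    ⟨⌈50 / l⌉₊, Nat.le_ceil _, (Nat.ceil_lt_add_one (by positivity)).le.trans (by
      rw [show 51 / l = 50 / l + 1 / l by ring]
      exact add_le_add_right ((one_le_div l0).2 l1) _)⟩
  let c : X → ι → ℕ := fun z i => ⌊(dist z (P i true) - dist y (P i true) + ρ / 4) / (l * ρ / 100)⌋₊
  have a0 : ∀ z ∈ ball y (ρ / 4), ∀ i, 0 ≤ dist z (P i true) - dist y (P i true) + ρ / 4 ∧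
      dist z (P i true) - dist y (P i true) + ρ / 4 < ρ / 2 := fun z hz i => by
    have := abs_le.1 (abs_dist_sub_le z y (P i true))
    rw [mem_ball] at hz
    constructor <;> linarith
  have h3 : ball y (ρ / 4) ⊆ ⋃ v ∈ Fintype.piFinset fun _ : ι => Finset.range n,
      {z ∈ ball y (ρ / 4) | c z = v} := fun z hz => mem_iUnion₂.2 ⟨c z, Fintype.mem_piFinset.2
    fun i => Finset.mem_range.2 ((Nat.floor_lt (div_nonneg (a0 z hz i).1 (by positivity))).2 (by
      refine lt_of_lt_of_le ?_ hn1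
      rw [div_lt_div_iff₀ (by positivity) l0]
      nlinarith [(a0 z hz i).2])), hz, rfl⟩
  have K0 : ∀ v, μ {z ∈ ball y (ρ / 4) | c z = v} ≤ ENNReal.ofReal (K * (l * ρ) ^ 3) := fun v => by
    rcases eq_empty_or_nonempty {z ∈ ball y (ρ / 4) | c z = v} with e | ⟨z, hz, e⟩
    · rw [e, measure_empty]
      exact bot_le
    refine (measure_mono fun z' hz' => ?_).trans (h2 z (ball_subset_ball (by linarith) hz))
    by_contra n
    obtain ⟨i, hi⟩ := hn (fun σ => cond σ z' z) (by rintro (_ | _); exacts [hz, hz'.1])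
      (not_lt.1 n)
    have e1 : c z' i = c z i := by rw [e, hz'.2]
    have p0 : 0 < l * ρ / 100 := by positivity
    have f1 := Nat.floor_le (div_nonneg (a0 z hz i).1 p0.le)
    have f2 := Nat.floor_le (div_nonneg (a0 z' hz'.1 i).1 p0.le)
    have f3 := Nat.lt_floor_add_one ((dist z (P i true) - dist y (P i true) + ρ / 4) / (l * ρ / 100))
    have f4 := Nat.lt_floor_add_one ((dist z' (P i true) - dist y (P i true) + ρ / 4) / (l * ρ / 100))
    simp only [c] at e1
    rw [e1] at f2 f4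
    rw [le_div_iff₀ p0] at f1 f2
    rw [div_lt_iff₀ p0, add_mul] at f3 f4
    simp only [cond_true, cond_false] at hi
    exact hi.not_ge (abs_le.2 ⟨by linarith, by linarith⟩)
  have h4 := h1.trans ((measure_mono h3).trans ((measure_biUnion_finset_le _ _).trans
    (Finset.sum_le_card_nsmul _ _ _ fun v _ => K0 v)))
  rw [Fintype.card_piFinset, Finset.prod_const, Finset.card_range, Finset.card_univ,
    nsmul_eq_mul, ← ENNReal.ofReal_natCast,
    ← ENNReal.ofReal_mul (Nat.cast_nonneg _), ENNReal.ofReal_le_ofReal_iff', Nat.cast_pow] at h4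
  refine h4.elim (fun h4 => ?_) fun h4 => h4.not_gt (by positivity)
  have n1 : (1 : ℝ) ≤ n := le_trans ((one_le_div l0).2 (by linarith)) hn1
  have h5 : (n : ℝ) ^ Fintype.card ι ≤ (51 / l) ^ 2 :=
    (pow_le_pow_right₀ n1 hι).trans (pow_le_pow_left₀ (by linarith) hn2 2)
  have K1 : 0 < K * (l * ρ) ^ 3 := by
    by_contra! n
    nlinarith [mul_nonneg (zero_le_one.trans (one_le_pow₀ (n := Fintype.card ι) n1)) (neg_nonneg.2 n),
      (by positivity : 0 < w * (ρ / 4) ^ 3)]
  have h6 := h4.trans (mul_le_mul_of_nonneg_right h5 K1.le)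
  rw [show (51 / l) ^ 2 * (K * (l * ρ) ^ 3) = (51 ^ 2 * 64 * K * l) * (ρ / 4) ^ 3 by
    field_simp; norm_num] at h6
  have h7 := le_of_mul_le_mul_right h6 (by positivity)
  have K2 : 0 < K := (mul_pos_iff_of_pos_right (by positivity)).1 K1
  nlinarith [mul_pos K2 l0]

/-- the strainer map is open -/
theorem St.opn [Fintype ι] (hι : Fintype.card ι ≤ 3) (hS : Cmp S) (h : St S P y ρ)
    (hc : IsCompact (closedBall y (ρ / 2))) {v : ι → ℝ}
    (hv : ∀ i, |dist y (P i true) - v i| < ρ / 24) :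
    ∃ z ∈ ball y ρ, ∀ i, dist z (P i true) = v i := by
  classical
  have r0 := h.pos
  obtain ⟨z, hz, hm⟩ := hc.exists_isMinOn ⟨y, mem_closedBall_self (by linarith)⟩
    (f := fun z => ∑ i, |dist z (P i true) - v i| + dist z y / 2) (by fun_prop)
  have c3 : (Fintype.card ι : ℝ) ≤ 3 := by exact_mod_cast hι
  have h1 : ∑ i, |dist z (P i true) - v i| + dist z y / 2 ≤ ρ / 8 := by
    refine (hm (mem_closedBall_self (by linarith))).trans ?_
    have := Finset.sum_le_card_nsmul Finset.univ _ _ fun i _ => (hv i).le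
    rw [nsmul_eq_mul, Finset.card_univ] at this
    simp only [dist_self]
    nlinarith
  have s0 : 0 ≤ ∑ i, |dist z (P i true) - v i| := Finset.sum_nonneg fun _ _ => abs_nonneg _
  have hz1 : z ∈ ball y ρ := mem_ball.2 (by linarith)
  refine ⟨z, hz1, fun i => by_contra fun n => ?_⟩
  obtain ⟨s, hs⟩ : ∃ s, |dist z (P i true) - v i| = s := ⟨_, rfl⟩
  have s1 : 0 < s := hs ▸ abs_pos.2 (sub_ne_zero.2 n)
  have s2 : s ≤ ρ / 8 := by
    have := Finset.single_le_sum (f := fun i => |dist z (P i true) - v i|) (fun _ _ => abs_nonneg _)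
      (Finset.mem_univ i)
    linarith [dist_nonneg (x := z) (y := y)]
  obtain ⟨σ, hσ⟩ : ∃ σ, σ = decide (v i < dist z (P i true)) := ⟨_, rfl⟩
  obtain ⟨z', e1, e2⟩ := hS.mid z (h.sub hz1) _ (h.mem i σ) s s1.le (by linarith [h.far z hz1 i σ])
  have t1 := dist_triangle_left z' y z
  have hz2 : z' ∈ ball y ρ := mem_ball.2 (by linarith)
  have e3 : dist z' z = s := by rwa [dist_comm]
  have p1 : 0 < dist z' z := by linarith
  have k1 : ∀ j ≠ i, ∀ τ, dist z (P j τ) - 17 / 100 * s ≤ dist z' (P j τ) := fun j hj τ => by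
    have a1 := hS.quad z' (h.sub hz2) _ (h.mem j τ) z (h.sub hz1) _ (h.mem i σ) (h.ps hz2 _ _) p1
      (h.ps hz2 _ _) (by
        rw [ce, div_le_iff₀ (by have := h.ps hz2 i σ; positivity), show dist z (P i σ) =
          dist z' z + dist z' (P i σ) by linarith]
        nlinarith [mul_pos p1 (h.ps hz2 i σ)])
    have a2 := (ce_le p1 (h.nr hz2 hz1 j τ)).1
    rw [ce_comm, e3] at a2
    nlinarith [h.crs z' hz2 j i hj τ σ]
  have k2 : ∀ j ≠ i, |dist z' (P j true) - v j| ≤ |dist z (P j true) - v j| + 21 / 100 * s :=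
    fun j hj => by
      have a1 := h.exc hS hz1 hz2 j true
      have a2 := k1 j hj true
      have a3 := k1 j hj false
      simp only [Bool.not_true] at a1
      refine abs_le.2 ⟨?_, ?_⟩ <;>
        linarith [le_abs_self (dist z (P j true) - v j), neg_abs_le (dist z (P j true) - v j)]
  have k3 : |dist z' (P i true) - v i| ≤ s / 25 := by
    have a1 := h.exc hS hz2 hz1 i true
    have a2 := abs_le.1 (abs_dist_sub_le z' z (P i true))
    simp only [Bool.not_true] at a1
    by_cases e : v i < dist z (P i true)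
    · rw [hσ, decide_eq_true e] at e2
      rw [abs_of_pos (sub_pos.2 e)] at hs
      exact abs_le.2 ⟨by linarith, by linarith⟩
    · rw [hσ, decide_eq_false e] at e2
      rw [abs_of_nonpos (by linarith)] at hs
      have a3 := h.exc hS hz1 hz2 i true
      simp only [Bool.not_true] at a3
      exact abs_le.2 ⟨by linarith, by linarith⟩
  have h2 : _ ≤ ∑ i, |dist z' (P i true) - v i| + dist z' y / 2 :=
    hm (mem_closedBall.2 (by linarith))
  have h3 := Finset.sum_le_sum fun j (hj : j ∈ Finset.univ.erase i) =>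
    k2 j (Finset.ne_of_mem_erase hj)
  rw [Finset.sum_add_distrib, Finset.sum_const, nsmul_eq_mul, Finset.card_erase_of_mem
    (Finset.mem_univ i), Finset.card_univ] at h3
  have c2 : ((Fintype.card ι - 1 : ℕ) : ℝ) ≤ 2 := by exact_mod_cast (by omega)
  simp only [← Finset.add_sum_erase _ _ (Finset.mem_univ i)] at h2
  nlinarith

/-- RESET -/
theorem reset [MeasurableSpace X] [BorelSpace X] {μ : Measure X} {x₀ : X} {w K R : ℝ} (w0 : 0 < w)
    (wK : w ≤ K) (R0 : 0 < R) (hS : Cmp (ball x₀ R)) (hc : IsCompact (closedBall x₀ R))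
    (h1 : ∀ y ∈ ball x₀ R, ∀ r, 0 < r → r ≤ R → ENNReal.ofReal (w * r ^ 3) ≤ μ (ball y r) ∧
      μ (ball y r) ≤ ENNReal.ofReal (K * r ^ 3)) :
    ∃ y r, (w / K / 10 ^ 12) ^ 3 * R ≤ r ∧ r ≤ R ∧ ball y r ⊆ ball x₀ R ∧
      ENNReal.ofReal ((r / 12) ^ 3) ≤ μH[3] (ball y r) := by
  classical
  have K0 : 0 < K := by linarith
  obtain ⟨l, hl⟩ : ∃ l, w / K / 10 ^ 7 = l := ⟨_, rfl⟩
  have l0 : 0 < l := by rw [← hl]; positivity
  have l1 : l ≤ 1 := by
    rw [← hl]
    exact div_le_one_of_le₀ (((div_le_one K0).2 wK).trans (by norm_num)) (by norm_num)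
  have l2 : 1000000 * K * l < w := by
    rw [← hl, show 1000000 * K * (w / K / 10 ^ 7) = w / 10 by field_simp; norm_num]
    linarith
  have st : ∀ {ι : Type} [Fintype ι] {P : ι → Bool → X} {y ρ}, Fintype.card ι ≤ 2 → ρ ≤ R →
      St (ball x₀ R) P y ρ → ∃ (P' : Option ι → Bool → X) (y' : X) (ρ' : ℝ),
        l / 10 ^ 5 * ρ ≤ ρ' ∧ ρ' ≤ ρ / 2 ∧ St (ball x₀ R) P' y' ρ' := fun {ι _ P y ρ} hι hρ h => by
    have r0 := h.pos
    obtain ⟨x, a1, a2, a3⟩ := h.pair hι w0 l0 l1 l2
      (h1 y (h.sub (mem_ball_self r0)) _ (by linarith) (by linarith)).1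
      fun z hz => (h1 z (h.sub hz) _ (by positivity) (by nlinarith)).2
    obtain ⟨y', hy⟩ := h.step hS a1 (lt_of_lt_of_le (by positivity) a2)
      fun i => (a3 i).trans (by linarith)
    have a4 := dist_triangle_right (x true) (x false) y
    exact ⟨_, y', dist (x true) (x false) / 100000, by linarith,
      by linarith [mem_ball.1 (a1 true), mem_ball.1 (a1 false)], hy⟩
  obtain ⟨P1, y1, r1, a1, b1, c1⟩ := st (ι := Empty) (P := fun i => i.elim) (y := x₀) (by simp)
    le_rfl ⟨R0, subset_rfl, fun i => i.elim, fun _ _ i => i.elim, fun _ _ i => i.elim,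
      fun _ _ i => i.elim⟩
  obtain ⟨P2, y2, r2, a2, b2, c2⟩ := st (by simp) (by linarith) c1
  obtain ⟨P3, y3, r3, a3, b3, c3⟩ := st (by simp) (by linarith [c1.pos]) c2
  have r0 := c3.pos
  refine ⟨y3, r3, ?_, by linarith [c1.pos, c2.pos], c3.sub, ?_⟩
  · rw [show w / K / 10 ^ 12 = l / 10 ^ 5 by rw [← hl]; ring]
    have q0 : 0 < l / 10 ^ 5 := by positivity
    calc _ = l / 10 ^ 5 * (l / 10 ^ 5 * (l / 10 ^ 5 * R)) := by ring
      _ ≤ l / 10 ^ 5 * (l / 10 ^ 5 * r1) := by gcongr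
      _ ≤ l / 10 ^ 5 * r2 := by gcongr
      _ ≤ _ := a3
  have hc3 : IsCompact (closedBall y3 (r3 / 2)) := hc.of_isClosed_subset isClosed_closedBall
    ((closedBall_subset_ball (by linarith)).trans (c3.sub.trans ball_subset_closedBall))
  have lp : LipschitzWith 1 fun (z : X) (i : Option (Option (Option Empty))) => dist z (P3 i true) :=
    LipschitzWith.of_dist_le_mul fun a b => by
      simpa using (dist_pi_le_iff dist_nonneg).2 fun i => abs_dist_sub_le a b (P3 i true)
  have h2 := lp.hausdorffMeasure_image_le (d := 3) (by norm_num) (ball y3 r3)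
  have h3 := hausdorffMeasure_pi_real (ι := Option (Option (Option Empty)))
  simp only [Fintype.card_option, Fintype.card_empty] at h3
  norm_num at h2 h3
  refine le_trans ?_ ((measure_mono fun v (hv : v ∈ ball (fun i => dist y3 (P3 i true)) (r3 / 24)) =>
    ?_).trans h2)
  · rw [h3, Real.volume_pi_ball _ (by linarith)]
    simp only [Fintype.card_option, Fintype.card_empty]
    exact ENNReal.ofReal_le_ofReal (le_of_eq (by ring))
  obtain ⟨z, hz, e⟩ := c3.opn (by simp) hS hc3 (v := v) fun i => by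
    rw [abs_sub_comm]
    exact (dist_le_pi_dist v (fun i => dist y3 (P3 i true)) i).trans_lt hv
  exact ⟨z, hz, funext e⟩

end

end Vale.Agent.P216TK
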